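import Vale.Agent.P057TP.Ops2
import Vale.Agent.P057AD.Add
import Vale.Agent.P057SH.Mass
import Vale.Agent.P057PC.Cub

/-!
Towers without the arithmetic conditions; lengths of label vectors.
-/

set_option linter.all false

open Matrix Finset MvPolynomial
open Vale.Agent.P267.H775 Vale.Agent.P057G Vale.Agent.P057PC Vale.Agent.P057TP Vale.Agent.P057AD

namespace Vale.Agent.P057XL

noncomputable section

section nq

variable {L : Type} [Fintype L] {G : Matrix L L ℝ}

/-- the length of a vector -/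
def nq (G : Matrix L L ℝ) (x : L → ℝ) : ℝ := √(qq G x)

theorem nq_nonneg (x : L → ℝ) : 0 ≤ nq G x := Real.sqrt_nonneg _

theorem nq_zero : nq G 0 = 0 := by simp [nq, qq_zero]

theorem nq_sq (hG : G.PosDef) (x : L → ℝ) : nq G x ^ 2 = qq G x :=
  Real.sq_sqrt (qq_nonneg hG.posSemidef x)

theorem nq_le {x : L → ℝ} {r : ℝ} (h0 : 0 ≤ r) (h : qq G x ≤ r ^ 2) : nq G x ≤ r :=
  Real.sqrt_le_iff.2 ⟨h0, h⟩

theorem qq_le (hG : G.PosDef) {x : L → ℝ} {r : ℝ} (h : nq G x ≤ r) : qq G x ≤ r ^ 2 :=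
  nq_sq hG x ▸ pow_le_pow_left₀ (nq_nonneg x) h 2

theorem nq_add (hG : G.PosDef) (x y : L → ℝ) : nq G (x + y) ≤ nq G x + nq G y := by
  refine nq_le (add_nonneg (nq_nonneg _) (nq_nonneg _)) ?_
  have h : bb G x y ≤ nq G x * nq G y := (abs_le_of_sq_le_sq' (by
    rw [mul_pow, nq_sq hG, nq_sq hG]; exact bb_sq_le hG.posSemidef x y)
    (mul_nonneg (nq_nonneg _) (nq_nonneg _))).2
  rw [qq_add hG.1, add_sq, nq_sq hG, nq_sq hG]
  linarith

theorem nq_smul (c : ℝ) (x : L → ℝ) : nq G (c • x) = |c| * nq G x := by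
  rw [nq, qq_smul, Real.sqrt_mul (sq_nonneg c), Real.sqrt_sq_eq_abs, nq]

theorem nq_neg (x : L → ℝ) : nq G (-x) = nq G x := by rw [nq, qq_neg, nq]

theorem nq_sum (hG : G.PosDef) {J : Type} (s : Finset J) (v : J → L → ℝ) {K : ℝ}
    (h : ∀ j ∈ s, nq G (v j) ≤ K) : nq G (∑ j ∈ s, v j) ≤ s.card * K := by
  rw [← nsmul_eq_mul]
  refine le_trans ?_ (sum_le_card_nsmul s _ K h)
  exact le_sum_of_subadditive (nq G) nq_zero.le (nq_add hG) s v

theorem nq_dlt {W : Type} [DecidableEq W] (hG : G.PosDef) {f : Finset W → L → ℝ} {A : Finset W}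
    {K : ℝ} (h : ∀ B ⊆ A, nq G (f B) ≤ K) :
    nq G (fun a => dlt (fun B => f B a) A) ≤ 2 ^ A.card * K := by
  have e : (fun a => dlt (fun B => f B a) A) =
      ∑ B ∈ A.powerset, ((-1 : ℝ) ^ (A.card - B.card)) • f B := by
    funext a; simp [dlt, Finset.sum_apply]
  rw [e]
  refine (nq_sum hG _ _ (K := K) fun B hB => ?_).trans_eq (by simp)
  rw [nq_smul, abs_pow, abs_neg, abs_one, one_pow, one_mul]
  exact h B (mem_powerset.1 hB)

end nq

variable {D W S : Type} {T T' : Tow} {s : ℕ}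

theorem vars_low0 (hT : T.Ok0 s) {Z : Sys T W S} (h : Z.Ok) (o : Option S) (a j : T.ι)
    (hj : j ∈ (Z.fam.fn o a).vars) : T.lv j < T.lv a := by
  classical
  obtain ⟨β, h1, h2⟩ := (mem_vars j).1 hj
  obtain ⟨μ, h3⟩ := ne_zero_iff.1 (mem_support_iff.1 h1)
  by_cases e : μ = 0
  · refine hT.low a j ((mem_vars j).2 ⟨β, mem_support_iff.2 ?_, h2⟩)
    rw [← h.top, ← h.fam.top_eq o, coeff_map]
    rw [e] at h3
    exact h3
  · have h4 := h.fam.hom _ _ _ _ h3
    have h6 : μ.degree ≠ 0 := fun m => e ((Finsupp.degree_eq_zero_iff μ).1 m)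
    have h7 := Finsupp.le_weight_of_ne_zero' T.lv (Finsupp.mem_support_iff.1 h2)
    omega

variable [Fintype W] [DecidableEq W] [Fintype S] {cl : W → D} {m : ℕ}

theorem summable_w0 (hT : T.Ok0 s) {Z : Sys T W S} (h : Z.Ok) : Summable (Z.w cl m) := by
  refine summable_ng (lv := fun l : Lb T cl S m => T.lv l.cd) (p := fun z => Z.pr cl m (toR z))
    (fun l z z' k => sum_congr rfl fun B hB => congrArg _ ?_) (P057GH.pd_Gam hT.pd cl S m)
  exact eval₂Hom_congr' rfl (fun j hj _ => P057GH.pt_congr fun l' h1 _ _ => by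
    subst h1
    rw [toR_apply, toR_apply, k l' (vars_low0 hT h _ _ _ (vars_map _ _ hj))]) rfl

open Classical in
/-- the component of a label vector on a face over a base -/
def cpt (u : Lb T cl S m → ℝ) (φ : Finset W × Option S) (a : T.ι) : ℝ :=
  ∑ l, if l.cd = a ∧ (l.fc, l.bs) = φ then u l else 0

theorem qq_cpt (u : Lb T cl S m → ℝ) : qq (Gam T cl S m) u = ∑ φ, qq T.G (cpt u φ) := by
  classical
  refine (qq_face T.G Lb.cd (fun l => (l.fc, l.bs)) (fun l l' => ?_) u).trans ?_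
  · simp only [Gam, of_apply, Prod.ext_iff]; congr
  · refine sum_congr rfl fun φ _ => congrArg _ (funext fun a => sum_congr rfl fun l _ => ?_)
    congr

theorem cpt_le (hG : T.G.PosDef) (u : Lb T cl S m → ℝ) (φ : Finset W × Option S) :
    nq T.G (cpt u φ) ≤ nq (Gam T cl S m) u := by
  refine Real.sqrt_le_sqrt ?_
  rw [qq_cpt]
  exact single_le_sum (fun φ _ => qq_nonneg hG.posSemidef (cpt u φ)) (mem_univ φ)

theorem nq_pt (hG : T.G.PosDef) (u : Lb T cl S m → ℝ) (o : Option S) (B : Finset W) :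
    nq T.G (pt u o B) ≤ 2 ^ (B.card + 1) * nq (Gam T cl S m) u := by
  classical
  have e : pt u o B = ∑ φ ∈ B.powerset ×ˢ {none, o}, cpt u φ := by
    funext a
    simp only [pt, cpt, Finset.sum_apply]
    rw [sum_comm]
    refine sum_congr rfl fun l _ => ?_
    by_cases h : l.cd = a <;> simp [h, ite_and]
  rw [e]
  refine (nq_sum hG _ _ fun φ _ => cpt_le hG u φ).trans (mul_le_mul_of_nonneg_right ?_ (nq_nonneg _))
  rw [card_product, card_powerset, pow_succ]
  exact_mod_cast Nat.mul_le_mul_left _ card_le_two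

theorem cpt_ren {e : T.ι → T'.ι} (he : ∀ a, T'.lv (e a) = T.lv a) (hi : e.Injective)
    (x : Lb T' cl S m → ℝ) (φ : Finset W × Option S) :
    cpt (x ∘ Lb.ren e he) φ = cpt x φ ∘ e := funext fun a =>
  Fintype.sum_of_injective _ (ren_inj he hi) _ _ (fun l hl => if_neg fun k => hl (mem_ren he k.1))
    fun l => @if_congr _ _ _ (_) (_) _ _ _ _ (and_congr_left' hi.eq_iff.symm) rfl rfl

/-- domination of Gram matrices passes to the labels -/
theorem gam_dom {e : T.ι → T'.ι} (he : ∀ a, T'.lv (e a) = T.lv a) (hi : e.Injective) {c : ℝ}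
    (h : ∀ x, c * qq T.G (x ∘ e) ≤ qq T'.G x) (v : Lb T' cl S m → ℝ) :
    c * qq (Gam T cl S m) (v ∘ Lb.ren e he) ≤ qq (Gam T' cl S m) v := by
  rw [qq_cpt, qq_cpt, mul_sum]
  exact sum_le_sum fun φ _ => by rw [cpt_ren he hi]; exact h _

/-- towers with one level -/
theorem qq_one {e : ℕ} (he : ∀ a, T.lv a = e) (hs : e ≤ s) (g : Finset W → Option S → T.ι → ℝ)
    {b X : ℝ} (hb : 0 ≤ b) (hX : (Fintype.card W + Fintype.card S : ℝ) ≤ X)
    (h : ∀ l : Lb T cl S m, qq T.G (g l.fc l.bs) ≤ b) :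
    qq (Gam T cl S m) (fun l : Lb T cl S m => g l.fc l.bs l.cd) ≤ (X + 1) ^ (s + 1) * b := by
  classical
  have h1 : ∀ φ, cpt (fun l : Lb T cl S m => g l.fc l.bs l.cd) φ ≠ 0 →
      ∃ l : Lb T cl S m, (l.fc, l.bs) = φ := fun φ k => by
    obtain ⟨a, ha⟩ := Function.ne_iff.1 k
    obtain ⟨l, -, hl⟩ := exists_ne_zero_of_sum_ne_zero ha
    exact ⟨l, (ite_ne_right_iff.1 hl).1.2⟩
  rw [qq_cpt, ← sum_subset (subset_univ ((univ.filter fun A : Finset W => A.card ≤ s) ×ˢ univ))]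
  · refine (sum_le_card_nsmul _ _ b fun φ _ => ?_).trans ?_
    · by_cases k : cpt (fun l : Lb T cl S m => g l.fc l.bs l.cd) φ = 0
      · rwa [k, qq_zero]
      obtain ⟨l, rfl⟩ := h1 φ k
      refine le_of_eq_of_le (congrArg _ (funext fun a => ?_)) (h l)
      refine (sum_eq_single (P057SH.mv l ⟨a, (he _).trans (he _).symm⟩) (fun l' _ hl => if_neg
        fun k => hl (Lb.ext' k.1 (congrArg (·.1) k.2) (congrArg (·.2) k.2))) (by simp)).trans ?_
      exact if_pos ⟨rfl, rfl⟩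
    · rw [nsmul_eq_mul, card_product, card_univ, Fintype.card_option, pow_succ]
      have h2 : ((univ.filter fun A : Finset W => A.card ≤ s).card : ℝ) ≤
          (Fintype.card W + 1) ^ s := by exact_mod_cast P057SH.card_faces s
      have h3 : (0 : ℝ) ≤ Fintype.card W := Nat.cast_nonneg _
      have h4 : (0 : ℝ) ≤ Fintype.card S := Nat.cast_nonneg _
      push_cast
      refine mul_le_mul_of_nonneg_right (mul_le_mul (h2.trans (pow_le_pow_left₀ (by linarith)
        (by linarith) _)) (by linarith) (by linarith) (pow_nonneg (by linarith) _)) hb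
  · intro φ _ hφ
    by_contra k
    obtain ⟨l, rfl⟩ := h1 φ fun k2 => k (by rw [k2, qq_zero])
    exact hφ (by simpa using l.card_le.trans ((he _).trans_le hs))

section add

variable {K : Type} [Fintype K] [DecidableEq K] {lk : K → ℕ} {Q : K → MvPolynomial T.ι ℝ}
  {Gk : Matrix K K ℝ} {Z : Sys T W S}

omit [Fintype W] [DecidableEq W] [Fintype S] in
theorem ok0_add (hT : T.Ok0 s) (h1 : ∀ k, 0 < lk k ∧ lk k ≤ s)
    (h2 : ∀ k, (Q k).IsWeightedHomogeneous T.lv (lk k)) (h3 : Gk.PosDef)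
    (h4 : ∀ k k', lk k ≠ lk k' → Gk k k' = 0) : (T.add K lk Q Gk).Ok0 s := by
  classical
  refine ⟨?_, ?_, ?_, ?_, pd_gad hT.pd h3 _, bd_gad hT.blk h4 bd_lin, ?_⟩
  · rintro (a | k)
    exacts [hT.pos a, (h1 k).1]
  · rintro (a | k)
    exacts [hT.le a, (h1 k).2]
  · rintro (a | k)
    · exact wh_rename (hT.hom a) fun _ => rfl
    · refine wh_rename (wh_bind (h2 k) fun b => ?_) fun _ => rfl
      split_ifs
      exacts [hT.hom b, isWeightedHomogeneous_X _ _ b]
  · rintro (a | k) j hj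
    · obtain ⟨i, hi, rfl⟩ := mem_image.1 (vars_rename _ _ hj)
      exact hT.low a i hi
    · obtain ⟨i, hi, rfl⟩ := mem_image.1 (vars_rename _ _ hj)
      obtain ⟨b, hb, h⟩ := mem_biUnion.1 (vars_bind₁ _ _ hi)
      change T.lv i < lk k
      split_ifs at h with e
      · exact e ▸ hT.low b i h
      · rw [vars_X, mem_singleton] at h
        exact h ▸ lt_of_le_of_ne (wh_vars (h2 k) hb) e
  · rintro (a | k) e
    exacts [hT.el1 a e, rfl]

omit [Fintype W] [DecidableEq W] [Fintype S] in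
theorem yy_add0 (hT : T.G.PosDef) (h3 : Gk.PosDef) (h4 : ∀ k k', lk k ≠ lk k' → Gk k k' = 0)
    (N : ℝ) (e : ℕ) :
    (T.add K lk Q Gk).yy N e = T.yy N e + Real.log (bk Gk fun k => lk k = e).det / 2 := by
  have h := (congrArg det (bk_gad T.G h4 (bd_lin (Q := Q)) e)).trans (det_gad _ _ _)
  rw [det_submatrix_equiv_self] at h
  have h' : (bk (T.add K lk Q Gk).G fun a => (T.add K lk Q Gk).lv a = e).det =
      (bk T.G fun x => T.lv x = e).det * (bk Gk fun x => lk x = e).det := h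
  unfold Tow.yy
  rw [h', Real.log_mul (posDef_bk hT _).det_pos.ne' (posDef_bk h3 _).det_pos.ne']
  ring

theorem add0 (hT : T.Ok0 s) (hT' : (T.add K lk Q Gk).Ok0 s) (hZ : Z.Ok)
    (h2 : ∀ k, (Q k).IsWeightedHomogeneous T.lv (lk k)) (h3 : Gk.PosDef)
    (h4 : ∀ k k', lk k ≠ lk k' → Gk k k' = 0) {H : (Lb T cl S m → ℤ) → ℝ} {B κ σ : ℝ}
    (hS : Z.St cl m H B κ σ) : ∃ x : Lb (T.add K lk Q Gk) cl S m → ℝ,
      (∀ l a, l.cd = Sum.inl a → x l = 0) ∧
      (Z.add K lk Q Gk x).St cl m (fun z => H (z ∘ il)) B κ σ := by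
  have hg : ∀ y, |H y - κ| ≤ B + |κ| := fun y => (abs_sub _ _).trans (add_le_add_left (hS.1 y) _)
  obtain ⟨x, -, h7⟩ := exists_cen (P057GH.pd_Gam (T := tk lk Gk) h3 cl S m)
    (summable_mul_real (summable_w0 hT hZ) (P057GH.w_nonneg _) hg) (cen Z Q)
  set c := Sum.elim (fun _ => 0) x ∘ (eL (cl := cl) (S := S) (m := m) (lk := lk) (Gk := Gk) Q).symm
  have hc : ∀ l a, l.cd = Sum.inl a → c l = 0 := fun l a e => by
    obtain ⟨u, rfl⟩ := mem_ren (T' := T.add K lk Q Gk) (e := Sum.inl) (fun _ => rfl) e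
    exact congrArg (Sum.elim (fun _ => 0) x) ((eL Q).symm_apply_apply (Sum.inl u))
  refine ⟨c, hc, fun z => hS.1 _, hS.2.trans (h7.trans_eq (Eq.symm ?_))⟩
  have h8 : c ∘ ir = x :=
    funext fun l => congrArg (Sum.elim (fun _ => 0) x) ((eL Q).symm_apply_apply (Sum.inr l))
  have hs := summable_mul_real (summable_w0 (cl := cl) (m := m) hT' (ok_sys hT'.pos hZ h2 c))
    (P057GH.w_nonneg _) fun z => hg (z ∘ il)
  let e := Equiv.arrowCongr (eL (cl := cl) (S := S) (m := m) (lk := lk) (Gk := Gk) Q)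
    (Equiv.refl ℤ)
  refine (e.tsum_eq _).symm.trans ((tsum_sum_elim (e.summable_iff.2 hs)).trans
    (tsum_congr fun y => ?_))
  rw [th, ← tsum_div_const, ← tsum_mul_left]
  refine tsum_congr fun n => ?_
  have h5 : e (Sum.elim y n) ∘ il = y :=
    funext fun l => congrArg (Sum.elim y n) ((eL Q).symm_apply_apply (Sum.inl l))
  have h6 : e (Sum.elim y n) ∘ ir = n :=
    funext fun l => congrArg (Sum.elim y n) ((eL Q).symm_apply_apply (Sum.inr l))
  rw [Function.comp_apply, w_add hT.pd h4 hc, h5, h6, h8, mul_right_comm]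
  rfl

end add

end

end Vale.Agent.P057XL
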