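import Vale.Agent.P057XL.Step

/-!
The choice of the parameters.
-/

set_option linter.all false

open Finset
open Vale.Agent.P057TP

namespace Vale.Agent.P057XL

noncomputable section

/-- the parameters for given sizes -/
def par (s u : ℕ) (X Y V : ℝ) : Par where
  x0 := Real.exp (X ^ 5)
  g := Real.exp (X ^ 3)
  t := Real.exp (-X ^ 3)
  R := V ^ (u + 1)
  δ := Real.exp (-X ^ 2)
  r0 := Real.exp (X ^ 2)
  M := Real.exp (Y ^ u)
  Q := Y ^ (2 * s + 10)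
  Dn := X ^ (2 * s + 3)

variable {s u : ℕ} {X Y V : ℝ}

theorem pow_le_exp {x : ℝ} (hx : 0 ≤ x) (n : ℕ) : x ^ n ≤ Real.exp (n * x) := by
  rw [Real.exp_nat_mul]
  exact pow_le_pow_left₀ hx (by linarith [Real.add_one_le_exp x]) n

theorem two_pow (n : ℕ) : (2 : ℝ) ^ n ≤ Real.exp n := by
  rw [← mul_one (n : ℝ), Real.exp_nat_mul]
  exact pow_le_pow_left₀ two_pos.le (by linarith [Real.add_one_le_exp (1 : ℝ)]) n

theorem n_Dn (hX : (3 * s + u + 10 : ℝ) ≤ X) {w v : ℕ} (h : (w + v : ℝ) ≤ X) {k e : ℕ} (he : e ≤ s)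
    (hk : k ≤ e * (w + e) ^ e) : (k * (v + 1) : ℝ) ≤ X ^ (2 * s + 3) := by
  have h0 : (0 : ℝ) ≤ s := s.cast_nonneg
  have h1 : (0 : ℝ) ≤ u := u.cast_nonneg
  have h2 : (e : ℝ) ≤ s := Nat.cast_le.2 he
  have h3 : (0 : ℝ) ≤ w := w.cast_nonneg
  have h4 : (0 : ℝ) ≤ v := v.cast_nonneg
  have h5 : (k : ℝ) ≤ e * (w + e) ^ e := by exact_mod_cast hk
  have h6 : (w + e : ℝ) ^ e ≤ (X ^ 2) ^ s :=
    (pow_le_pow_left₀ (by positivity) (by nlinarith) e).trans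
      (pow_le_pow_right₀ (by nlinarith) he)
  calc (k * (v + 1) : ℝ) ≤ X * (X ^ 2) ^ s * X ^ 2 :=
        mul_le_mul (h5.trans (mul_le_mul (by linarith) h6 (by positivity) (by linarith)))
          (by nlinarith) (by positivity) (by have : 0 ≤ X := by linarith
                                             positivity)
    _ = _ := by ring

theorem n_sc (hX : (3 * s + u + 10 : ℝ) ≤ X) : (2 ^ (s + 1) * Real.exp (X ^ 2)) ^ 2 ≤
    Real.exp (X ^ 5) * (Real.exp (-X ^ 3) ^ s) ^ 2 := by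
  have h0 : (0 : ℝ) ≤ s := s.cast_nonneg
  have h1 : (0 : ℝ) ≤ u := u.cast_nonneg
  refine (pow_le_pow_left₀ (by positivity)
    (mul_le_mul_of_nonneg_right (two_pow _) (by positivity)) 2).trans ?_
  simp only [← Real.exp_nat_mul, ← Real.exp_add]
  refine Real.exp_le_exp.2 ?_
  push_cast
  have h2 : X ≤ X ^ 2 := by nlinarith
  have h3 : X ^ 2 ≤ X ^ 3 := pow_le_pow_right₀ (by linarith) (by norm_num)
  have h4 : X * X ^ 3 ≤ X ^ 5 := (pow_succ' X 3).symm.trans_le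
    (pow_le_pow_right₀ (by linarith) (by norm_num))
  nlinarith [mul_le_mul_of_nonneg_right hX (show 0 ≤ X ^ 3 by linarith), mul_nonneg h1
    (show 0 ≤ X ^ 3 by linarith), mul_nonneg h0 (show 0 ≤ X ^ 3 by linarith)]

theorem n_pin (hX : (3 * s + u + 10 : ℝ) ≤ X) : (X + 1) ^ (s + 1) * (2 ^ s * (Real.exp (-X ^ 3) +
    X ^ (2 * s + 3) * (2 ^ (s + 1) * Real.exp (X ^ 2) / Real.exp (X ^ 3)))) ^ 2 ≤
    Real.exp (-X ^ 2) ^ 2 := by
  have h0 : (0 : ℝ) ≤ s := s.cast_nonneg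
  have h1 : (0 : ℝ) ≤ u := u.cast_nonneg
  have X0 : 0 ≤ X := by linarith
  have h2 : (X + 1) ^ (s + 1) ≤ Real.exp (X ^ 2) :=
    (pow_le_pow_left₀ (by linarith) (Real.add_one_le_exp X) _).trans (by
      rw [← Real.exp_nat_mul]; refine Real.exp_le_exp.2 ?_; push_cast; nlinarith)
  have h3 : X ^ (2 * s + 3) * (2 ^ (s + 1) * Real.exp (X ^ 2) / Real.exp (X ^ 3)) ≤
      Real.exp (2 * X ^ 2 - X ^ 3) := by
    refine (mul_le_mul (pow_le_exp X0 _) (div_le_div_of_nonneg_right (mul_le_mul_of_nonneg_right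
      (two_pow _) (by positivity)) (by positivity)) (by positivity) (by positivity)).trans ?_
    simp only [← Real.exp_sub, ← Real.exp_add]
    refine Real.exp_le_exp.2 ?_
    push_cast
    nlinarith
  have h4 : Real.exp (-X ^ 3) ≤ Real.exp (2 * X ^ 2 - X ^ 3) := Real.exp_le_exp.2 (by nlinarith)
  have h5 : 2 ^ s * (Real.exp (-X ^ 3) + X ^ (2 * s + 3) *
      (2 ^ (s + 1) * Real.exp (X ^ 2) / Real.exp (X ^ 3))) ≤ Real.exp (3 * X ^ 2 - X ^ 3) := by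
    calc _ ≤ 2 ^ (s + 1) * Real.exp (2 * X ^ 2 - X ^ 3) := by
          nth_rw 2 [pow_succ (2 : ℝ) s]
          rw [mul_assoc (2 ^ s) 2]
          exact mul_le_mul_of_nonneg_left (by linarith) (by positivity)
      _ ≤ Real.exp ((s + 1 : ℕ) + (2 * X ^ 2 - X ^ 3)) := by
          rw [Real.exp_add]; gcongr; exact two_pow _
      _ ≤ _ := Real.exp_le_exp.2 (by push_cast; nlinarith)
  refine (mul_le_mul h2 (pow_le_pow_left₀ (by positivity) h5 2) (by positivity)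
    (by positivity)).trans ?_
  simp only [← Real.exp_nat_mul, ← Real.exp_add]
  refine Real.exp_le_exp.2 ?_
  push_cast
  nlinarith [mul_le_mul_of_nonneg_right (show 10 ≤ X by linarith) (sq_nonneg X)]

theorem n_Y (hX : (3 * s + u + 10 : ℝ) ≤ X) (hY : X ≤ Y) :
    s * (X ^ (2 * s + 3) * (Real.log (Real.exp (X ^ 3) ^ 2) + 1)) ≤ Y ^ (2 * s + 8) := by
  have h0 : (0 : ℝ) ≤ s := s.cast_nonneg
  have h1 : (0 : ℝ) ≤ u := u.cast_nonneg
  have X0 : 0 ≤ X := by linarith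
  have h2 : 1 ≤ X ^ 3 := one_le_pow₀ (by linarith)
  rw [← Real.exp_nat_mul, Real.log_exp]
  calc _ ≤ X * (X ^ (2 * s + 3) * (X * X ^ 3)) := by
        gcongr
        · linarith
        · push_cast; nlinarith
    _ = X ^ (2 * s + 8) := by ring
    _ ≤ _ := pow_le_pow_left₀ X0 hY _

theorem n_Q (hX : (3 * s + u + 10 : ℝ) ≤ X) (hY : X ≤ Y) : Y * (2 + Real.log (Real.exp (X ^ 5)) +
    s * (X ^ (2 * s + 3) * (Real.log (Real.exp (X ^ 3) ^ 2) + 1))) ≤ Y ^ (2 * s + 10) := by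
  have h0 : (0 : ℝ) ≤ s := s.cast_nonneg
  have h1 : (0 : ℝ) ≤ u := u.cast_nonneg
  have h2 := n_Y hX hY
  have h3 : X ^ 5 ≤ Y ^ (2 * s + 8) := (pow_le_pow_left₀ (by linarith) hY _).trans
    (pow_le_pow_right₀ (by linarith) (by omega))
  have h4 : 1 ≤ Y ^ (2 * s + 8) := one_le_pow₀ (by linarith)
  rw [Real.log_exp]
  calc _ ≤ Y * (Y * Y ^ (2 * s + 8)) := by
        gcongr
        · linarith
        · nlinarith
    _ = _ := by ring

theorem n_R (hX : (3 * s + u + 10 : ℝ) ≤ X) (hV : X ≤ V) (hE : V ≤ Real.exp X) (k : ℕ)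
    (hk : k ≤ u + 5) : V ^ k ≤ Real.exp (k * X) ∧ (k + 5) * X ≤ X ^ 2 := by
  have h0 : (0 : ℝ) ≤ s := s.cast_nonneg
  have h1 : (0 : ℝ) ≤ u := u.cast_nonneg
  have h2 : (k : ℝ) ≤ u + 5 := by exact_mod_cast hk
  exact ⟨by rw [Real.exp_nat_mul]; exact pow_le_pow_left₀ (by linarith) hE _, by nlinarith⟩

theorem n_eta (hX : (3 * s + u + 10 : ℝ) ≤ X) (hV : X ≤ V) (hE : V ≤ Real.exp X) :
    (s + 1) * (40 * Real.exp (-X ^ 2) * V ^ (u + 1) * Real.exp X) * V ≤ Real.exp (-X) := by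
  have h0 : (0 : ℝ) ≤ s := s.cast_nonneg
  have h1 : (0 : ℝ) ≤ u := u.cast_nonneg
  obtain ⟨h2, h3⟩ := n_R hX hV hE (u + 4) (by omega)
  have V0 : 0 ≤ V := by linarith
  calc _ ≤ V * (V ^ 2 * Real.exp (-X ^ 2) * V ^ (u + 1) * Real.exp X) * V := by
        gcongr <;> nlinarith
    _ = V ^ (u + 4) * V * Real.exp (-X ^ 2) * Real.exp X := by ring
    _ ≤ Real.exp ((u + 4 : ℕ) * X) * Real.exp X * Real.exp (-X ^ 2) * Real.exp X := by gcongr
    _ ≤ _ := by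
        simp only [← Real.exp_add]
        exact Real.exp_le_exp.2 (by nlinarith)

theorem n_rad (hX : (3 * s + u + 10 : ℝ) ≤ X) (hV : X ≤ V) :
    (s + 1) * (V ^ (u + 1) + 1) ≤ V ^ (u + 3) := by
  have h0 : (0 : ℝ) ≤ s := s.cast_nonneg
  have h1 : (0 : ℝ) ≤ u := u.cast_nonneg
  have h2 : 1 ≤ V ^ (u + 1) := one_le_pow₀ (by linarith)
  calc _ ≤ V * (V * V ^ (u + 1)) := by
        gcongr
        · linarith
        · linarith
        · nlinarith
    _ = _ := by ring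

theorem n_r0 (hX : (3 * s + u + 10 : ℝ) ≤ X) (hV : X ≤ V) (hE : V ≤ Real.exp X) :
    Real.exp X + V ^ (u + 3) ≤ Real.exp (X ^ 2) := by
  have h0 : (0 : ℝ) ≤ s := s.cast_nonneg
  have h1 : (0 : ℝ) ≤ u := u.cast_nonneg
  obtain ⟨h2, h3⟩ := n_R hX hV hE (u + 3) (by omega)
  have h4 : Real.exp X ≤ Real.exp ((u + 3 : ℕ) * X) := Real.exp_le_exp.2 (by push_cast; nlinarith)
  have h5 : Real.exp ((u + 3 : ℕ) * X) * Real.exp 1 ≤ Real.exp (X ^ 2) := by
    rw [← Real.exp_add]; exact Real.exp_le_exp.2 (by nlinarith)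
  nlinarith [Real.add_one_le_exp (1 : ℝ), Real.exp_pos ((u + 3 : ℕ) * X)]

theorem n_M (U : ℝ) (e : ℕ) : (2 * Real.exp U ^ 2) ^ e ≤ Real.exp (e * (1 + 2 * U)) := by
  rw [Real.exp_nat_mul, Real.exp_add, ← Real.exp_nat_mul]
  refine pow_le_pow_left₀ (by positivity) (mul_le_mul_of_nonneg_right ?_ (by positivity)) e
  linarith [Real.add_one_le_exp (1 : ℝ)]

theorem n_tl (hX : (3 * s + u + 10 : ℝ) ≤ X) (hY : X ≤ Y) (hV : Y ≤ V) (hu : 1 ≤ u) {B σ : ℝ}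
    (hB : B ≤ Real.exp X) (hσ : Real.exp (-V) ≤ σ) :
    8 * B * (Real.exp (Y ^ u) ^ 2) ^ 2 * Real.exp (-((V ^ (u + 1)) ^ 2 / 3)) ≤
      σ * Real.exp (-Y ^ u) / (2 * Real.exp (Y ^ u) ^ 2) ^ s := by
  have h0 : (0 : ℝ) ≤ s := s.cast_nonneg
  have h1 : (0 : ℝ) ≤ u := u.cast_nonneg
  have h2 : Y ^ u ≤ V ^ u := pow_le_pow_left₀ (by linarith) hV u
  have h3 : V ≤ V ^ u := le_self_pow₀ (by linarith) (by omega)
  have h4 : (8 : ℝ) ≤ Real.exp 3 := by exact_mod_cast (show (8 : ℝ) = 2 ^ 3 by norm_num) ▸ two_pow 3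
  have h5 : (0 : ℝ) ≤ Y ^ u := pow_nonneg (by linarith) u
  rw [le_div_iff₀ (by positivity)]
  calc _ ≤ Real.exp 3 * Real.exp X * (Real.exp (Y ^ u) ^ 2) ^ 2 *
        Real.exp (-((V ^ (u + 1)) ^ 2 / 3)) * Real.exp (s * (1 + 2 * Y ^ u)) := by
        refine mul_le_mul (mul_le_mul_of_nonneg_right (mul_le_mul_of_nonneg_right
          ((mul_le_mul_of_nonneg_left hB (by norm_num)).trans (mul_le_mul_of_nonneg_right h4
            (by positivity))) (by positivity)) (by positivity)) (n_M _ s) (by positivity)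
          (by positivity)
    _ ≤ Real.exp (-V) * Real.exp (-Y ^ u) := by
        simp only [← Real.exp_nat_mul, ← Real.exp_add]
        refine Real.exp_le_exp.2 ?_
        have h6 : 3 * ((3 * s + 10) * V ^ u) ≤ (V ^ (u + 1)) ^ 2 := by
          rw [pow_succ V u, mul_pow, sq (V ^ u), mul_assoc, ← mul_assoc 3, mul_comm (V ^ u)]
          refine mul_le_mul_of_nonneg_right ?_ (by linarith)
          nlinarith [mul_le_mul_of_nonneg_right (show 1 ≤ V ^ u by linarith) (sq_nonneg V)]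
        push_cast
        nlinarith [mul_le_mul_of_nonneg_left h2 h0, mul_le_mul_of_nonneg_left
          (show 1 ≤ V ^ u by linarith) h0]
    _ ≤ _ := mul_le_mul_of_nonneg_right hσ (by positivity)

theorem n_sig (hX : (3 * s + u + 10 : ℝ) ≤ X) (hY : X ≤ Y) {e c : ℕ} (he : e ≤ s) (hc : u + 1 ≤ c)
    {σ : ℝ} (hσ : 0 ≤ σ) :
    σ * Real.exp (-Y ^ c) ≤ σ * Real.exp (-Y ^ u) / (2 * Real.exp (Y ^ u) ^ 2) ^ e := by
  have h0 : (0 : ℝ) ≤ s := s.cast_nonneg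
  have h1 : (0 : ℝ) ≤ u := u.cast_nonneg
  have h2 : (e : ℝ) ≤ s := Nat.cast_le.2 he
  have h3 : 1 ≤ Y ^ u := one_le_pow₀ (by linarith)
  have h4 : Y * Y ^ u ≤ Y ^ c := (pow_succ' Y u).symm.trans_le (pow_le_pow_right₀ (by linarith) hc)
  rw [le_div_iff₀ (by positivity), mul_assoc]
  refine mul_le_mul_of_nonneg_left ((mul_le_mul_of_nonneg_left (n_M _ e) (by positivity)).trans
    ?_) hσ
  rw [← Real.exp_add]
  refine Real.exp_le_exp.2 ?_
  nlinarith [mul_le_mul_of_nonneg_right h2 (show 0 ≤ 1 + 2 * Y ^ u by linarith),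
    mul_le_mul_of_nonneg_left h3 h0, mul_le_mul_of_nonneg_right (hX.trans hY)
      (show 0 ≤ Y ^ u by linarith), mul_nonneg h1 (show 0 ≤ Y ^ u by linarith)]

end

end Vale.Agent.P057XL
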