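import Vale.Agent.P057XL.Out
import Vale.Agent.P057XL.Num
import Vale.Agent.P057RG.Num
import Vale.Agent.P057EV.Evt

/-!
Localisation along a morphism, and the event.
-/

set_option linter.all false

open Matrix Finset MvPolynomial
open Vale.Agent.P267.H775 Vale.Agent.P057G Vale.Agent.P057PC Vale.Agent.P057TP Vale.Agent.P057AD

namespace Vale.Agent.P057XL

noncomputable section

variable {D W S : Type} [Fintype W] [DecidableEq W] [Fintype S] {cl : W → D} {m : ℕ}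

theorem orc {s c0 u : ℕ} {N Y : ℝ} (hM : ∀ (N : ℝ) (P : ℕ → ℝ) (T : Tow) (C W S : Type)
      [Fintype W] [DecidableEq W] [Fintype S] (cl : W → C) (m : ℕ), Lad s N c0 P → T.Ok s N →
      T.Cx N P → (Fintype.card W + Fintype.card S : ℝ) ≤ P 1 →
      (Fintype.card (Lb T cl S m) : ℝ) ≤ P 1 ^ c0 ∧ T.mz cl S m ≤ Real.exp (P 1 ^ c0) ∧
        Real.exp (-P 1 ^ c0) ≤ ng (Gam T cl S m) 0) (hu : u = (2 * s + 10) * (c0 + 1))
    (hY : (3 * s + u + 10 : ℝ) ≤ Y) (h1 : 1 ≤ N) (h2 : Real.log N ≤ Y)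
    (hn : (Fintype.card W + Fintype.card S : ℝ) ≤ Y) (T : Tow) (hT : T.Ok s N)
    (hC : ∀ i, 1 ≤ i → T.dm i ≤ Y ^ (2 * s + 10) ∧ T.yy N i ≤ Y ^ (2 * s + 10)) :
    T.mz cl S m ≤ Real.exp (Y ^ u) ∧ Real.exp (-Y ^ u) ≤ ng (Gam T cl S m) 0 := by
  have s0 : (0 : ℝ) ≤ s := s.cast_nonneg
  have u0 : (0 : ℝ) ≤ u := u.cast_nonneg
  have k1 : (c0 : ℝ) ≤ u := Nat.cast_le.2 (by nlinarith)
  have k2 : Y ≤ Y ^ (2 * s + 10) := le_self_pow₀ (by linarith) (by omega)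
  have k3 : (Y ^ (2 * s + 10)) ^ c0 ≤ Y ^ u := by
    rw [← pow_mul]; exact pow_le_pow_right₀ (by linarith) (by nlinarith)
  obtain ⟨-, k4, k5⟩ := hM N (fun _ => Y ^ (2 * s + 10)) T D W S cl m ⟨fun _ => le_rfl,
    fun _ => by linarith, (Real.log_le_self (by linarith)), h1, h2.trans k2⟩ hT (fun i => by
      rcases i with _ | i
      · have := ld_zero hT.pos
        rw [ld] at this
        rw [dm_zero hT.pos, Tow.yy, this, if_neg zero_ne_one]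
        constructor <;> linarith
      · exact hC _ (by omega)) (hn.trans k2)
  exact ⟨k4.trans (Real.exp_le_exp.2 k3), (Real.exp_le_exp.2 (neg_le_neg k3)).trans k5⟩

section num

variable {s u e : ℕ} {X Y V B κ : ℝ}

theorem n_all (hX : (3 * s + u + 10 : ℝ) ≤ X) (hV : X ≤ V) (hE : V ≤ Real.exp X) (he : e ≤ s)
    (B0 : 0 ≤ B) (hB : B ≤ Real.exp X) (hκ : Real.exp (-X) ≤ κ) :
    2 ≤ V ^ (u + 1) ∧ 40 * Real.exp (-X ^ 2) * V ^ (u + 1) ≤ 1 ∧ V ^ (u + 1) ≤ Real.exp (X ^ 2) ∧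
    s * (40 * Real.exp (-X ^ 2) * V ^ (u + 1) * B) ≤ κ ∧
    Real.exp X ≤ Real.exp (X ^ 2) - e * (V ^ (u + 1) + 1) ∧
    e * Real.exp (-X ^ 2) ≤ Real.exp (-X) ∧ Real.exp (-X) ^ 2 ≤ Real.exp (-X) ∧
    e * V ^ (u + 1) + e * Real.exp (-X ^ 2) ≤ V ^ (u + 3 * s + 20) ∧
    (1 - 1 / V) * κ ≤ κ - e * (40 * Real.exp (-X ^ 2) * V ^ (u + 1) * B) := by
  have s0 : (0 : ℝ) ≤ s := s.cast_nonneg
  have u0 : (0 : ℝ) ≤ u := u.cast_nonneg
  have es : (e : ℝ) ≤ s := Nat.cast_le.2 he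
  have e0 : (0 : ℝ) ≤ e := e.cast_nonneg
  have η := n_eta hX hV hE
  have ra := n_rad hX hV
  have r0 := n_r0 hX hV hE
  have V1 : 1 ≤ V := by linarith
  have R1 : V ≤ V ^ (u + 1) := le_self_pow₀ V1 (by omega)
  have X1 : 1 ≤ Real.exp X := Real.one_le_exp (by linarith)
  have X2 : Real.exp (-X) ≤ 1 := Real.exp_le_one_iff.2 (by linarith)
  have X3 : Real.exp (-X ^ 2) ≤ 1 := Real.exp_le_one_iff.2 (neg_nonpos.2 (sq_nonneg _))
  have δ0 := Real.exp_pos (-X ^ 2)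
  have η1 : (s + 1) * (40 * Real.exp (-X ^ 2) * V ^ (u + 1)) ≤ Real.exp (-X) :=
    le_trans (by
      refine le_trans ?_ (le_mul_of_one_le_right (by positivity) V1)
      exact mul_le_mul_of_nonneg_left (le_mul_of_one_le_right (by positivity) X1) (by positivity)) η
  have η2 : s * (40 * Real.exp (-X ^ 2) * V ^ (u + 1) * B) * V ≤ κ := by
    refine le_trans ?_ (η.trans hκ)
    gcongr
    linarith
  have r1 : e * (V ^ (u + 1) + 1) ≤ V ^ (u + 3) := le_trans (by gcongr; linarith) ra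
  refine ⟨by linarith, ((le_mul_of_one_le_left (by positivity) (by linarith)).trans η1).trans X2,
    (pow_le_pow_right₀ V1 (show u + 1 ≤ u + 3 by omega)).trans (le_trans (by linarith) r0),
    (le_mul_of_one_le_right (by positivity) V1).trans η2, by linarith, le_trans ?_ η1,
    pow_le_of_le_one (Real.exp_pos _).le X2 two_ne_zero,
    le_trans ?_ (r1.trans (pow_le_pow_right₀ V1 (by omega))), ?_⟩
  · refine mul_le_mul (by linarith) ?_ δ0.le (by linarith)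
    nlinarith
  · rw [mul_add]; gcongr
  · rw [sub_mul, one_mul, one_div_mul_eq_div]
    refine sub_le_sub_left ((le_div_iff₀ (by linarith)).2 (le_trans ?_ η2)) _
    gcongr

theorem n_cx (hX : (3 * s + u + 10 : ℝ) ≤ X) (hY : X ≤ Y) (he : e ≤ s) {d : ℝ} (hd : 0 ≤ d) :
    e * (Y * X ^ (2 * s + 3)) ≤ Y ^ (u + 3 * s + 20) ∧ d * (Real.log (Real.exp (X ^ 5)) / 2) +
      e * (Y * (X ^ (2 * s + 3) * (Real.log (Real.exp (X ^ 3) ^ 2) + 1))) ≤
      (d + 1) * Y ^ (u + 3 * s + 20) := by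
  have s0 : (0 : ℝ) ≤ s := s.cast_nonneg
  have u0 : (0 : ℝ) ≤ u := u.cast_nonneg
  have es : (e : ℝ) ≤ s := Nat.cast_le.2 he
  have X0 : 0 ≤ X := by linarith
  have U1 : 1 ≤ Y := by linarith
  have k5 : Y * Y ^ (2 * s + 8) ≤ Y ^ (u + 3 * s + 20) :=
    (pow_succ' _ _).symm.trans_le (pow_le_pow_right₀ U1 (by omega))
  have k6 : X ^ 5 ≤ Y ^ (u + 3 * s + 20) :=
    (pow_le_pow_left₀ X0 hY _).trans (pow_le_pow_right₀ U1 (by omega))
  have k7 := Real.log_nonneg (one_le_pow₀ (n := 2) (Real.one_le_exp (pow_nonneg X0 3)))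
  have k9 : (e : ℝ) * (Y * (X ^ (2 * s + 3) * (Real.log (Real.exp (X ^ 3) ^ 2) + 1))) ≤
      Y ^ (u + 3 * s + 20) := by
    refine le_trans ?_ ((mul_le_mul_of_nonneg_left (n_Y hX hY) (by linarith)).trans k5)
    rw [mul_left_comm]
    gcongr
  refine ⟨le_trans ?_ k9, ?_⟩
  · gcongr
    exact le_mul_of_one_le_right (by positivity) (by linarith)
  · rw [add_one_mul, Real.log_exp]
    refine add_le_add (mul_le_mul_of_nonneg_left ?_ hd) k9
    linarith [pow_nonneg X0 5]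

end num

theorem iter {s e : ℕ} {N X B κ σ σ' : ℝ} {P : ℕ → ℝ} {T T₀ : Tow} {φ : T.ι → MvPolynomial T₀.ι ℤ}
    {Z : Sys T W S} {H : (Lb T cl S m → ℤ) → ℝ} {a : Par} (ha : a.Ok s N P cl S m X B κ σ')
    (hT : T.Ok s N) (hC : T.Cx N P) (hZ : Z.Ok) (h0 : T₀.Ok e N) (hC0 : T₀.Cx N P)
    (hφ : Mor (e + 1) T₀ T φ) (js : e + 1 ≤ s + 1) (jm : e + 1 ≤ m) (hS : Z.St cl m H B κ σ)
    (σ0 : 0 ≤ σ) (ho : ∀ T' : Tow, T'.Ok s N → (∀ i, 1 ≤ i → T'.dm i ≤ a.Q ∧ T'.yy N i ≤ a.Q) →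
      σ' ≤ σ * ng (Gam T' cl S m) 0) (i : ℕ) (hi : i ≤ e) :
    ∃ (T' : Tow) (Z' : Sys T' W S) (Ψ' : Fam ℤ T.ι T'.ι W S) (ε' : T₀.ι → T'.ι)
      (ρ' : {a // i < T.lv a} → T'.ι), Inv s (e + 1) a.x0 φ cl m Z i Z' Ψ' ε' ρ' ∧
      Qt a N P T₀ cl m Z H B κ σ' i Z' Ψ' := by
  induction i with
  | zero =>
    refine ⟨_, _, _, _, _, init hT hZ h0 e.lt_succ_self js jm ha.x0, initQ hT hZ h0 (by omega)
      ha.x0 hS σ0 (ho _ (ok0_nar h0 (by omega) ha.x0) fun i hi => ?_)⟩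
    have l0 := Real.log_nonneg ha.x0
    have k1 := (hC0 i).1.trans (ha.anti _ _ hi)
    have k2 := (hC0 i).2.trans (ha.anti _ _ hi)
    have k3 := mul_le_mul_of_nonneg_right k1 l0
    have k5 := mul_nonneg (ha.P0 1) (mul_nonneg s.cast_nonneg (mul_nonneg (le_trans (by positivity)
      (ha.Dn 0 s.zero_le)) (add_nonneg (Real.log_nonneg (one_le_pow₀ (n := 2) ha.g)) zero_le_one)))
    have k6 := mul_nonneg (ha.P0 1) l0
    rw [P057SH.yy_nar h0.pd (one_pos.trans_le ha.x0)]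
    change T₀.dm i ≤ _ ∧ _
    constructor <;> linarith [ha.P0 1, ha.Q]
  | succ i ih =>
    obtain ⟨_, _, _, _, _, h, q⟩ := ih (by omega)
    exact step ha hT hC hZ h0 hC0 hφ e.lt_succ_self (by omega) js jm h q

theorem xloc (s : ℕ) : XLOC s := by
  obtain ⟨c0, hM⟩ := P057NA.mass s
  obtain ⟨u, hu⟩ : ∃ u, u = (2 * s + 10) * (c0 + 1) := ⟨_, rfl⟩
  refine ⟨u + 3 * s + 20, fun N P T T₀ φ C W S _ _ _ cl m j Z H B κ σ hL hT hC hZ j1 jm js h0 hC0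
    hφ hn hB hκ hσ hS => ?_⟩
  obtain ⟨e, rfl⟩ : ∃ e, j = e + 1 := ⟨j - 1, by omega⟩
  replace h0 : T₀.Ok e N := h0
  have s0 : (0 : ℝ) ≤ s := s.cast_nonneg
  have u0 : (0 : ℝ) ≤ u := u.cast_nonneg
  have an : ∀ i k, i ≤ k → P k ≤ P i := fun i k => P057RG.lad_le hL
  have bg : ∀ i, (3 * s + u + 10 : ℝ) ≤ P i := fun i => le_trans (by push_cast; linarith) (hL.big i)
  have p0 : ∀ i, 0 ≤ P i := fun i => by linarith [bg i]
  have hX := bg (e + 1)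
  have hY := an 1 (e + 1) j1
  have hV := an 0 1 zero_le_one
  have hE : P 0 ≤ Real.exp (P (e + 1)) := (Real.le_exp_log _).trans
    (Real.exp_le_exp.2 (hL.lg.trans (an _ _ js)))
  have σ0 : 0 < σ := (Real.exp_pos _).trans_le hσ
  have B0 : 0 ≤ B := (abs_nonneg _).trans (hS.1 0)
  have ho := fun T => orc (cl := cl) (S := S) (m := m) hM hu (bg 1) hL.one hL.lN (hn.trans hY) T
  obtain ⟨n1, n2, n3, n4, n5, n6, n7, n8, n9⟩ :=
    n_all hX (hY.trans hV) hE (show e ≤ s by omega) B0 hB hκ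
  have ha : (par s u (P (e + 1)) (P 1) (P 0)).Ok s N P cl S m (P (e + 1)) B κ
      (σ * Real.exp (-P 1 ^ u)) :=
    ⟨Real.one_le_exp (pow_nonneg (p0 _) _), Real.one_le_exp (pow_nonneg (p0 _) _), Real.exp_pos _,
      Real.exp_le_one_iff.2 (neg_nonpos.2 (pow_nonneg (p0 _) _)), n1, (Real.exp_pos _).le, n2, n3,
      Real.one_le_exp (pow_nonneg (p0 _) _), hL.one, p0, an, hn,
      fun i hi => n_Dn hX hn hi (card_Mn i), n_sc hX, n_pin hX, fun T' h1 h2 => (ho T' h1 h2).1,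
      n_Q hX hY, B0, n4, by positivity, n_tl hX hY hV (hu ▸ Nat.succ_le_of_lt (by positivity)) hB hσ⟩
  obtain ⟨T', Z', Ψ, ε, ρ, h, ⟨x, x1, x2, x3⟩, q2, q3, q4⟩ := iter ha hT hC hZ h0 hC0 hφ js jm hS
    σ0.le (fun T' h1 h2 => mul_le_mul_of_nonneg_left (ho T' h1 h2).2 σ0.le) e le_rfl
  have hT' := h.ok' hT h0 hφ ha.x0 e.lt_succ_self
  have hr := (Real.exp_le_exp.2 (an _ _ js)).trans n5
  refine ⟨T', Z', Ψ, ⟨ε, h.ei⟩, h.eqv, hT', h.zok, ⟨Ψ.top, h.eqv, h.mor hT hZ h0.pd hφ ha.x0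
    e.lt_succ_self le_rfl, h.rl, h.top_up, h.q_up hZ, h.rg, h.el_up hT⟩,
    ⟨h.rl, h.rv, h.rf, h.rg, h.el_up hT⟩, ⟨h.pok, h.mor hT hZ h0.pd hφ ha.x0 e.lt_succ_self jm,
      h.cel, fun z hz => (h.blk_le hT.pd hZ z x1).trans (add_le_add_right ((add_le_add x2
        (x3 z (hz.trans hr))).trans n8) _)⟩,
    P057RG.st_mono hT' h.zok q2 n9 (n_sig hX hY (by omega) (by omega) σ0.le), fun i hi => ?_,
    fun a => ⟨h.ev a, h.el_eps hT hφ ((h0.pos a).trans_le (h0.le a)) e.lt_succ_self a,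
      fun o => h.ef o a⟩, fun v => le_trans (mul_le_mul_of_nonneg_right (Real.exp_le_exp.2
        (le_self_pow₀ (by linarith) (by norm_num))) (qq_nonneg h0.pd.posSemidef _)) (h.dom v),
    fun a k => h.tp a (by omega), x, fun z hz => ?_⟩
  · have k1 := q3 i
    have k2 := q4 i
    have k3 := n_cx hX (an _ _ (show i + 1 ≤ e + 1 by omega)) (show e ≤ s by omega)
      (P057RG.dm_nonneg T₀ i)
    rw [if_neg (by omega), add_zero] at k1 k2
    exact ⟨k1.trans (add_le_add_right k3.1 _), k2.trans ((add_assoc _ _ _).trans_le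
      (add_le_add_right k3.2 _))⟩
  · simp only [Nat.lt_succ_iff]
    exact (qq_le (P057GH.pd_Gam hT.pd cl S m) ((x3 z (hz.trans hr)).trans n6)).trans n7

theorem event (s : ℕ) : EVENT s := P057EV.event (xloc s) (P057FZ.sheet0 s)

end

end Vale.Agent.P057XL
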