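import Vale.Agent.P057XL.Base
import Vale.Agent.P057CU.Cuta

/-!
The frame that removes an orthogonal block of coordinates.
-/

set_option linter.all false

open Matrix Finset MvPolynomial
open Vale.Agent.P267.H775 Vale.Agent.P057G Vale.Agent.P057PC Vale.Agent.P057TP Vale.Agent.P057AD
open Vale.Agent.P057ST Vale.Agent.P057SH

namespace Vale.Agent.P057XL

noncomputable section

variable {D W S : Type} {T : Tow} {s e : ℕ} {A : Type} [Fintype A] [DecidableEq A]

/-- the matrix of a map -/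
def inc {ι κ : Type} [DecidableEq ι] (f : κ → ι) : Matrix ι κ ℤ :=
  Matrix.of fun x b => if x = f b then 1 else 0

section inc

variable {ι κ ν : Type} [Fintype ι] [DecidableEq ι]

theorem inc_mul (f : κ → ι) (g : ν → ι) (b : κ) (c : ν) :
    ((inc f)ᵀ * inc g) b c = if f b = g c then 1 else 0 := by
  simp [inc, mul_apply, eq_comm]

theorem mR_inc (f : κ → ι) (b : κ) (y : ι) : mR (inc f)ᵀ b y = if y = f b then 1 else 0 := by
  simp [inc, mR]

theorem inc_vec (f : κ → ι) (v : ι → ℝ) : mR (inc f)ᵀ *ᵥ v = v ∘ f := by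
  funext b; simp [inc, mR, mulVec, dotProduct]

theorem inc_one [DecidableEq κ] {f : κ → ι} (h : f.Injective) : (inc f)ᵀ * inc f = 1 := by
  ext b c; rw [inc_mul, one_apply]; simp [h.eq_iff]

theorem inc_zero {f : κ → ι} {g : ν → ι} (h : ∀ b c, f b ≠ g c) : (inc f)ᵀ * inc g = 0 := by
  ext b c; rw [inc_mul, if_neg (h b c)]; rfl

omit [Fintype ι] in
theorem ort_inc {lv : ι → ℕ} {lw : κ → ℕ} {f : κ → ι} (h : ∀ b, lv (f b) = lw b) :
    P057MA.Ort lv lw (inc f) := fun x b k => by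
  rw [← h, (ite_ne_right_iff.1 k).1]

omit [Fintype ι] in
theorem sum_inc [Fintype κ] {M : Type} [Ring M] {f : κ → ι} (h : f.Injective) (φ : ℤ →+* M)
    (g : κ → M) (b : κ) : ∑ c, φ (inc f (f b) c) * g c = g b := by
  classical
  simp [inc, h.eq_iff, apply_ite φ]

omit [Fintype ι] in
theorem sum_inc0 [Fintype κ] {M : Type} [Ring M] {f : κ → ι} (φ : ℤ →+* M) (g : κ → M) {x : ι}
    (h : ∀ c, x ≠ f c) : ∑ c, φ (inc f x c) * g c = 0 := by
  simp [inc, h]

end inc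

/-- the frame of a block -/
def frm (T : Tow) {ρ : A → T.ι} (h : ∀ α, T.lv (ρ α) = e) (GA : Matrix A A ℝ) : Frame T e where
  ι := {x // x ∉ Set.range ρ}
  A := A
  lv b := T.lv b
  r := ⟨fun x => ⟨⟨x.1, fun ⟨α, k⟩ => x.2 (k ▸ h α)⟩, x.2⟩, fun b => ⟨b.1.1, b.2⟩, fun _ => rfl,
    fun _ => rfl⟩
  L := inc Subtype.val
  a := inc ρ
  P := (inc Subtype.val)ᵀ
  K := (inc ρ)ᵀ
  B := mR (inc Subtype.val)ᵀ
  D := mR (inc ρ)ᵀ
  G := bk T.G (· ∉ Set.range ρ)
  GA := GA

variable {ρ : A → T.ι} {h : ∀ α, T.lv (ρ α) = e} {GA : Matrix A A ℝ}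

/-- an orthogonal block -/
structure Blk (T : Tow) (ρ : A → T.ι) (GA : Matrix A A ℝ) : Prop where
  inj : ρ.Injective
  gr : ∀ α β, T.G (ρ α) (ρ β) = GA α β
  ort : ∀ α x, x ∉ Set.range ρ → T.G (ρ α) x = 0

theorem val_ne (b : {x // x ∉ Set.range ρ}) (α : A) : b.1 ≠ ρ α := fun k => b.2 ⟨α, k.symm⟩

theorem Ba_zero : (frm T h GA).B * mR (frm T h GA).a = 0 :=
  (mR_mul _ _).symm.trans ((congrArg mR (inc_zero val_ne)).trans (Matrix.ext fun _ _ => Int.cast_zero))

theorem Blk.qq (hB : Blk T ρ GA) (hG : T.G.PosDef) (v : T.ι → ℝ) :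
    qq T.G v = qq (bk T.G (· ∉ Set.range ρ)) (v ∘ Subtype.val) + qq GA (v ∘ ρ) := by
  let E : {x // x ∉ Set.range ρ} ⊕ A ≃ T.ι := Equiv.ofBijective (Sum.elim Subtype.val ρ)
    ⟨Subtype.val_injective.sumElim hB.inj val_ne, fun x => by
      by_cases k : x ∈ Set.range ρ
      exacts [let ⟨α, k⟩ := k; ⟨Sum.inr α, k⟩, ⟨Sum.inl ⟨x, k⟩, rfl⟩]⟩
  have h1 : T.G.submatrix E E = fromBlocks (bk T.G (· ∉ Set.range ρ)) 0 0 GA := by
    ext (a | a) (b | b)
    exacts [rfl, (hG.1.apply _ _).symm.trans (hB.ort b a a.2), hB.ort a b b.2, hB.gr a b]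
  rw [← qq_submatrix _ E, h1, qq_blocks]
  rfl

theorem Blk.pd (hB : Blk T ρ GA) (hG : T.G.PosDef) : GA.PosDef := by
  rw [show GA = T.G.submatrix ρ ρ from Matrix.ext fun α β => (hB.gr α β).symm]
  exact hG.submatrix hB.inj

theorem frm_ok (hT : T.Ok0 s) (hB : Blk T ρ GA) : (frm T h GA).Ok := by
  have o1 : P057MA.Ort T.lv (frm T h GA).lv (frm T h GA).L := ort_inc fun _ => rfl
  have o2 : P057MA.Ort T.lv (fun _ => e) (frm T h GA).a := ort_inc h
  refine ⟨o1, o2, o1.transpose, o2.transpose, o1.transpose.mR, o2.transpose.mR,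
    fun a b k => by_contra fun k2 => k (hT.blk _ _ k2), fun _ => rfl, fun x b => ?_, fun x y => ?_,
    fun _ _ => rfl, ?_, inc_one Subtype.val_injective, inc_one hB.inj, inc_zero val_ne,
    inc_zero fun b c => (val_ne c b).symm, ?_, ?_, Or.inl Ba_zero, fun v => ?_,
    posDef_bk hT.pd _, hB.pd hT.pd⟩
  · exact if_congr ⟨fun k => Subtype.ext k.symm, fun k => (congrArg Subtype.val k).symm⟩ rfl rfl
  · exact mR_inc _ _ _
  · ext x y
    rw [Matrix.add_apply, mul_apply, mul_apply, one_apply]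
    by_cases k : x ∈ Set.range ρ
    · obtain ⟨α, rfl⟩ := k
      exact (congrArg₂ _ (sum_inc0 (RingHom.id ℤ) _ fun c => (val_ne c α).symm)
        (sum_inc hB.inj (RingHom.id ℤ) _ α)).trans ((zero_add _).trans (if_congr eq_comm rfl rfl))
    · exact (congrArg₂ _ (sum_inc Subtype.val_injective (RingHom.id ℤ) _ ⟨x, k⟩)
        (sum_inc0 (RingHom.id ℤ) _ (val_ne ⟨x, k⟩))).trans
        ((add_zero _).trans (if_congr eq_comm rfl rfl))
  · exact (mR_mul _ _).symm.trans ((congrArg mR (inc_one Subtype.val_injective)).trans mR_one)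
  · exact (mR_mul _ _).symm.trans ((congrArg mR (inc_one hB.inj)).trans mR_one)
  · exact (hB.qq hT.pd v).trans (congrArg₂ _ (congrArg _ (inc_vec _ v).symm)
      (congrArg _ (inc_vec _ v).symm))

theorem frm_jok {J : Fam ℤ A (frm T h GA).ι W S} (hJ : J.Ok (fun _ => e) (frm T h GA).lv) :
    (frm T h GA).Jok J := ⟨hJ, fun b α k => absurd (congrFun (congrFun Ba_zero b) α) k⟩

theorem psi_val (j : A → MvPolynomial (frm T h GA).ι ℤ) (b : (frm T h GA).ι) :
    (frm T h GA).psi j b.1 = X b :=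
  (congrArg₂ _ (sum_inc Subtype.val_injective C _ b) (sum_inc0 C _ (val_ne b))).trans (add_zero _)

variable [Fintype W] [DecidableEq W] [Fintype S] {cl : W → D} {m : ℕ}
  {J : Fam ℤ A (frm T h GA).ι W S}

theorem fam_val (n : Lb (frm T h GA).tA cl S m → ℤ) (o : Option S) (b : (frm T h GA).ι) :
    ((frm T h GA).fam J n).fn o b.1 = X b :=
  (congrArg₂ _ (sum_inc Subtype.val_injective (C.comp C) _ b)
    (sum_inc0 (C.comp C) _ (val_ne b))).trans (add_zero _)

theorem fam_rho (hi : ρ.Injective) (n : Lb (frm T h GA).tA cl S m → ℤ) (o : Option S) (α : A) :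
    ((frm T h GA).fam J n).fn o (ρ α) = J.fn o α + C (lift n o α) :=
  (congrArg₂ _ (sum_inc0 (C.comp C) _ fun c => (val_ne c α).symm)
    (sum_inc hi (C.comp C) _ α)).trans (zero_add _)

theorem sys_val (Z : Sys T W S) (n : Lb (frm T h GA).tA cl S m → ℤ) (o : Option S)
    (b : (frm T h GA).ι) :
    ((frm T h GA).sys Z J n).fam.fn o b = (Z.fam.cmp ((frm T h GA).fam J n)).fn o b.1 := by
  have e : ∀ y, (frm T h GA).B b y = if y = b.1 then 1 else 0 := mR_inc _ b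
  simp only [Frame.sys, e]
  rw [sum_eq_single b.1 (fun y _ k => by simp [k]) (by simp), fam_val]
  simp [lamZ]

theorem lab_inc {T' : Tow} {f : T'.ι → T.ι} (hf : ∀ b, T.lv (f b) = T'.lv b)
    (v : Lb T cl S m → ℝ) : lab (T := T') cl S m (mR (inc f)ᵀ) *ᵥ v = v ∘ Lb.ren f hf := by
  funext l
  rw [lab_mulVec (ort_inc hf).transpose.mR, sum_eq_single ⟨f l.cd, hf _⟩
    (fun b _ k => by simp [inc, mR, Subtype.ext_iff.not.1 k]) (by simp)]
  simp only [inc, mR, map_apply, transpose_apply, of_apply, if_true, Int.cast_one, one_mul]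
  rfl

/-- a remaining label -/
def lv (j : A → MvPolynomial (frm T h GA).ι ℤ) (l : Lb ((frm T h GA).tow j) cl S m) :
    Lb T cl S m := l.ren Subtype.val fun _ => rfl

variable (h GA) in
/-- a removed label -/
def la (l : Lb (frm T h GA).tA cl S m) : Lb T cl S m := l.ren ρ h

theorem labB (j : A → MvPolynomial (frm T h GA).ι ℤ) (v : Lb T cl S m → ℝ) :
    lab (T := (frm T h GA).tow j) cl S m (frm T h GA).B *ᵥ v = v ∘ lv j :=
  lab_inc (T' := (frm T h GA).tow j) (f := Subtype.val) (fun _ => rfl) v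

theorem labD (v : Lb T cl S m → ℝ) :
    lab (T := (frm T h GA).tA) cl S m (frm T h GA).D *ᵥ v = v ∘ la h GA :=
  lab_inc (T' := (frm T h GA).tA) (f := ρ) h v

theorem gam_frm (hT : T.Ok0 s) (hB : Blk T ρ GA) (j : A → MvPolynomial (frm T h GA).ι ℤ)
    (v : Lb T cl S m → ℝ) : qq (Gam T cl S m) v =
      qq (Gam ((frm T h GA).tow j) cl S m) (v ∘ lv j) +
        qq (Gam (frm T h GA).tA cl S m) (v ∘ la h GA) := by
  rw [P057CU.gam_split (j := j) hT.pd (frm_ok (h := h) hT hB) v, ← labB j v, ← labD v]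

theorem qq_mask (hT : T.Ok0 s) (hB : Blk T ρ GA) (j : A → MvPolynomial (frm T h GA).ι ℤ)
    (u : Lb T cl S m → ℝ) : qq (Gam T cl S m) (fun l => if l.cd ∈ Set.range ρ then 0 else u l) =
      qq (Gam ((frm T h GA).tow j) cl S m) (u ∘ lv j) := by
  rw [gam_frm hT hB j, show (fun l => if l.cd ∈ Set.range ρ then 0 else u l) ∘ la h GA = 0 from
    funext fun l => if_pos ⟨_, rfl⟩, qq_zero, add_zero]
  exact congrArg _ (funext fun l => if_neg l.cd.2)

theorem ps_frm (hT : T.Ok0 s) (hB : Blk T ρ GA) {Z : Sys T W S} (hZ : Z.Ok)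
    (hJ : J.Ok (fun _ => e) (frm T h GA).lv) (n : Lb (frm T h GA).tA cl S m → ℤ)
    (z : Lb ((frm T h GA).tow J.top) cl S m → ℤ) : ((frm T h GA).sys Z J n).ps cl m z =
      Z.ps cl m (((frm T h GA).fam J n).sub cl m z) ∘ lv J.top :=
  (P057CU.ps_sys (frm_ok hT hB) hZ hJ n z).trans (labB _ _)

theorem dv_frm (hT : T.Ok0 s) (hB : Blk T ρ GA) {Z : Sys T W S} (hZ : Z.Ok)
    (hJ : J.Ok (fun _ => e) (frm T h GA).lv) (n : Lb (frm T h GA).tA cl S m → ℤ)
    (z : Lb ((frm T h GA).tow J.top) cl S m → ℤ) :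
    toR n + ((frm T h GA).dv cl m Z J).sb (toR z) =
      Z.ps cl m (((frm T h GA).fam J n).sub cl m z) ∘ la h GA :=
  (P057CU.dv_eq hT (frm_ok hT hB) hZ hJ n z).trans (labD _)

theorem mz_frm (hT : T.Ok0 s) (hB : Blk T ρ GA) (j : A → MvPolynomial (frm T h GA).ι ℤ) :
    T.mz cl S m = ((frm T h GA).tow j).mz cl S m * (frm T h GA).tA.mz cl S m := by
  classical
  let e1 : Lb (frm T h GA).tA cl S m ≃ {l : Lb T cl S m // l.cd ∈ Set.range ρ} :=
    Equiv.ofBijective (fun l => ⟨la h GA l, _, rfl⟩) ⟨fun a b k =>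
      ren_inj (T := (frm T h GA).tA) h hB.inj (congrArg Subtype.val k), fun ⟨l, α, k⟩ => by
        obtain ⟨u, hu⟩ := mem_ren (T := (frm T h GA).tA) h k.symm
        exact ⟨u, Subtype.ext hu⟩⟩
  let e2 : Lb ((frm T h GA).tow j) cl S m ≃ {l : Lb T cl S m // l.cd ∉ Set.range ρ} :=
    Equiv.ofBijective (fun l => ⟨lv j l, l.cd.2⟩) ⟨fun a b k =>
      ren_inj (T := (frm T h GA).tow j) (T' := T) (e := Subtype.val) (fun _ => rfl)
        Subtype.val_injective (congrArg Subtype.val k),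
      fun ⟨l, k⟩ => by
        obtain ⟨u, hu⟩ := mem_ren (T := (frm T h GA).tow j) (e := Subtype.val) (fun _ => rfl)
          (l := l) (a := ⟨l.cd, k⟩) rfl
        exact ⟨u, Subtype.ext hu⟩⟩
  have h1 := ms_zero_split (P := fun l : Lb T cl S m => l.cd ∈ Set.range ρ)
    (P057GH.pd_Gam hT.pd cl S m) fun l l' ⟨α, k⟩ k2 =>
      lab_eq_zero fun _ _ => by rw [← k]; exact hB.ort α _ k2
  have h2 := ms_equiv e1 (G := bk (Gam T cl S m) _) (G' := Gam (frm T h GA).tA cl S m)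
    (p := fun _ => 0) (p' := fun _ => 0) (fun a b =>
      @if_congr _ _ _ (_) (_) _ _ _ _ Iff.rfl (hB.gr _ _).symm rfl) fun _ _ => rfl
  have h3 := ms_equiv e2 (G := bk (Gam T cl S m) _) (G' := Gam ((frm T h GA).tow j) cl S m)
    (p := fun _ => 0) (p' := fun _ => 0) (fun a b => rfl) fun _ _ => rfl
  have h4 := Fintype.card_congr (Equiv.sumCompl fun l : Lb T cl S m => l.cd ∈ Set.range ρ)
  rw [Fintype.card_sum, ← Fintype.card_congr e1, ← Fintype.card_congr e2] at h4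
  rw [Tow.mz, Tow.mz, Tow.mz, h1, h2, h3, ← h4, pow_add]
  ring

end

end Vale.Agent.P057XL
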