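import Vale.Agent.P057XL.Lnk
import Vale.Agent.P057RG.Up

/-!
The state after the levels up to `e` are localised, and one more level.
-/

set_option linter.all false

open Matrix Finset MvPolynomial
open Vale.Agent.P267.H775 Vale.Agent.P057G Vale.Agent.P057PC Vale.Agent.P057TP Vale.Agent.P057AD

namespace Vale.Agent.P057XL

noncomputable section

variable {D W S : Type} [Fintype W] [DecidableEq W] [Fintype S]

/-- the structural part of the state -/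
structure Inv (s j : ℕ) (x0 : ℝ) {T T₀ : Tow} (φ : T.ι → MvPolynomial T₀.ι ℤ) (cl : W → D) (m : ℕ)
    (Z : Sys T W S) (e : ℕ) {T1 : Tow} (Z1 : Sys T1 W S) (Ψ : Fam ℤ T.ι T1.ι W S)
    (ε : T₀.ι → T1.ι) (ρ : {a // e < T.lv a} → T1.ι) : Prop where
  ok0 : T1.Ok0 s
  zok : Z1.Ok
  pok : Ψ.Ok T.lv T1.lv
  ei : ε.Injective
  ev : ∀ a, T1.lv (ε a) = T₀.lv a
  ri : ρ.Injective
  rl : ∀ a, T1.lv (ρ a) = T.lv a
  er : ∀ a b, ε a ≠ ρ b
  ef : ∀ o a, Z1.fam.fn o (ε a) = rename ε (map C (T₀.q a))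
  rv : ∀ o a, Ψ.fn o a.1 = X (ρ a)
  rf : ∀ o a, Z1.fam.fn o (ρ a) = (Z.fam.cmp Ψ).fn o a.1
  rg : ∀ a b, T1.G (ρ a) (ρ b) = T.G a b
  ro : ∀ a x, x ∉ Set.range ρ → T1.G (ρ a) x = 0
  su : ∀ x, j ≤ T1.lv x → x ∈ Set.range ρ
  tp : ∀ a, T.lv a ≤ e → Ψ.top a = rename ε (φ a)
  dom : ∀ x, x0 * qq T₀.G (x ∘ ε) ≤ qq T1.G x
  el : ∀ y, toR T1.el ⬝ᵥ y = toR T.el ⬝ᵥ ap Ψ.top y
  sep : ∀ z, z ≠ 0 → T₀.el ⬝ᵥ (z ∘ ε) = 0 → T1.el ⬝ᵥ z = 0 → 1 ≤ qq T1.G (toR z)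
  cel : ∀ f z, ∀ c ∈ cells cl, ∀ t, Z1.F cl m f z c t = Z.F cl m f (Ψ.sub cl m z) c t

theorem ap_rename {ι κ ν : Type} (φ : ι → MvPolynomial κ ℤ) (ε : κ → ν) (y : ν → ℝ) (a : ι) :
    aeval y (rename ε (φ a)) = ap φ (y ∘ ε) a := aeval_rename _ _ _

theorem dot_cast {ι : Type} [Fintype ι] (u z : ι → ℤ) : toR u ⬝ᵥ toR z = ((u ⬝ᵥ z : ℤ) : ℝ) := by
  simp [dotProduct]

/-- the types of links -/
abbrev Th (W S : Type) [Fintype W] [DecidableEq W] (e : ℕ) : Type := Mn W e × Option S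

instance (W S : Type) [Fintype W] [DecidableEq W] (e : ℕ) : DecidableEq (Th W S e) :=
  Classical.decEq _

/-- the coordinates of one level -/
abbrev Lv (T : Tow) (e : ℕ) : Type := {a // T.lv a = e}

/-- the level of a link -/
def lkv {A : Type} {e : ℕ} (k : A × Th W S e) : ℕ := e + 1 - k.2.1.1.degree

theorem lkv_mem {A : Type} {e : ℕ} (k : A × Th W S e) : 0 < lkv k ∧ lkv k ≤ e := by
  have := mem_Mn.1 k.2.1.2
  unfold lkv; omega

variable {s j m e : ℕ} {N x0 : ℝ} {T T₀ T1 : Tow} {φ : T.ι → MvPolynomial T₀.ι ℤ} {cl : W → D}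
  {Z : Sys T W S} {Z1 : Sys T1 W S} {Ψ : Fam ℤ T.ι T1.ι W S} {ε : T₀.ι → T1.ι}
  {ρ : {a // e < T.lv a} → T1.ι}

/-- the coordinates that are removed next -/
def rA (ρ : {a // e < T.lv a} → T1.ι) (a : Lv T (e + 1)) : T1.ι := ρ ⟨a.1, a.2.ge⟩

/-- the targets of the links -/
def Qk (Z1 : Sys T1 W S) (ρ : {a // e < T.lv a} → T1.ι) (k : Lv T (e + 1) × Th W S e) :
    MvPolynomial T1.ι ℝ := cf k.2.1.1 (Z1.fam.fn k.2.2 (rA ρ k.1))

/-- the Gram matrix of the links -/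
def Gk (T : Tow) (W S : Type) [Fintype W] [DecidableEq W] (e : ℕ) (c : ℝ) :
    Matrix (Lv T (e + 1) × Th W S e) (Lv T (e + 1) × Th W S e) ℝ :=
  gk (Th W S e) c (bk T.G fun a => T.lv a = e + 1)

/-- the tower with the links -/
abbrev T2 (Z1 : Sys T1 W S) (ρ : {a // e < T.lv a} → T1.ι) (c : ℝ) : Tow :=
  T1.add _ lkv (Qk Z1 ρ) (Gk T W S e c)

theorem Gk_blk (c : ℝ) (k k' : Lv T (e + 1) × Th W S e) (h : lkv k ≠ lkv k') :
    Gk T W S e c k k' = 0 :=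
  gk_blk (fun θ : Th W S e => e + 1 - θ.1.1.degree) k k' h

theorem Gk_pd (hG : T.G.PosDef) {c : ℝ} (hc : 0 < c) : (Gk T W S e c).PosDef :=
  pd_gk (posDef_bk hG _) hc

namespace Inv

variable (h : Inv s j x0 φ cl m Z e Z1 Ψ ε ρ)
include h

theorem el_eq (hT : T.Ok s N) (hφ : Mor j T₀ T φ) (he : 1 ≤ e) (hj : e < j) (y : T1.ι → ℝ) :
    toR T1.el ⬝ᵥ y = toR T₀.el ⬝ᵥ (y ∘ ε) := by
  rw [h.el, hφ.el (by omega)]
  refine sum_congr rfl fun a _ => ?_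
  by_cases k : T.lv a = 1
  · rw [ap, h.tp a (by omega), ap_rename]
  · simp [hT.el1 a k]

theorem ok {s' : ℕ} (hT : T.Ok s N) (h0 : T₀.Ok s' N) (hφ : Mor j T₀ T φ) (hx : 1 ≤ x0)
    (he : 1 ≤ e) (hj : e < j) : T1.Ok s N := by
  refine h.ok0.ok (fun z hz k => h.sep z hz ?_ k) fun x => ?_
  · have := h.el_eq hT hφ he hj (toR z)
    rw [dot_cast, k] at this
    exact_mod_cast (dot_cast T₀.el (z ∘ ε)).symm.trans this.symm
  · rw [h.el_eq hT hφ he hj]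
    refine (h0.elN _).trans (mul_le_mul_of_nonneg_left (le_trans ?_ (h.dom x)) (sq_nonneg N))
    exact le_mul_of_one_le_left (qq_nonneg h0.pd.posSemidef _) hx

theorem rA_lv (a : Lv T (e + 1)) : T1.lv (rA ρ a) = e + 1 := (h.rl _).trans a.2

theorem fn_hom (o : Option S) (a : Lv T (e + 1)) : JH T1.lv (Z1.fam.fn o (rA ρ a)) (e + 1) :=
  fun β μ k => (h.zok.fam.hom o _ β μ k).trans (h.rA_lv a)

theorem Qk_hom (k : Lv T (e + 1) × Th W S e) :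
    (Qk Z1 ρ k).IsWeightedHomogeneous T1.lv (lkv k) :=
  cf_hom (h.fn_hom k.2.2 k.1) _

theorem ok2 (hG : T.G.PosDef) (hs : e ≤ s) {c : ℝ} (hc : 0 < c) : (T2 Z1 ρ c).Ok0 s :=
  ok0_add h.ok0 (fun k => ⟨(lkv_mem k).1, (lkv_mem k).2.trans hs⟩) h.Qk_hom (Gk_pd hG hc)
    (Gk_blk c)

theorem G2 (c : ℝ) (a : {a // e < T.lv a}) (x : (T2 Z1 ρ c).ι) :
    (T2 Z1 ρ c).G (Sum.inl (ρ a)) x = Sum.elim (T1.G (ρ a)) 0 x := by
  have h1 : ∀ k, T1.lin lkv (Qk Z1 ρ) k (ρ a) = 0 := fun k => bd_lin k _ (by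
    have := (lkv_mem k).2; have := h.rl a; have := a.2; omega)
  refine (congrFun (congrFun (gad_eq T1.G _ _) _) x).trans ?_
  cases x <;> simp [mul_apply, h1]

theorem blk (hT : T.Ok s N) (c : ℝ) :
    Blk (T2 Z1 ρ c) (fun a => Sum.inl (rA ρ a)) (bk T.G fun a => T.lv a = e + 1) := by
  refine ⟨fun a b k => Subtype.ext (congrArg (·.1) (h.ri (Sum.inl_injective k))),
    fun a b => (h.G2 c _ _).trans (h.rg _ _), fun a x hx => (h.G2 c _ _).trans ?_⟩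
  rcases x with x | x
  · by_cases k : x ∈ Set.range ρ
    · obtain ⟨b, rfl⟩ := k
      exact (h.rg _ _).trans (hT.blk _ _ fun k => hx ⟨⟨b.1, k.symm.trans a.2⟩, rfl⟩)
    · exact h.ro _ x k
  · rfl

/-- the frame of the next level -/
def fr (c : ℝ) : Frame (T2 Z1 ρ c) (e + 1) :=
  frm (T2 Z1 ρ c) (ρ := fun a => Sum.inl (rA ρ a)) h.rA_lv (bk T.G fun a => T.lv a = e + 1)

/-- the coordinates of `T₀` -/
def e' (c : ℝ) (a : T₀.ι) : (h.fr c).ι :=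
  ⟨Sum.inl (ε a), fun ⟨_, k⟩ => h.er _ _ (Sum.inl_injective k).symm⟩

/-- the old coordinates of higher level -/
def r' (c : ℝ) (a : {a // e + 1 < T.lv a}) : (h.fr c).ι :=
  ⟨Sum.inl (ρ ⟨a.1, (Nat.lt_succ_self e).trans a.2⟩), fun ⟨b, k⟩ =>
    a.2.ne (b.2.symm.trans (congrArg (T.lv ·.1) (h.ri (Sum.inl_injective k))))⟩

/-- the links -/
def ln (c : ℝ) (k : Lv T (e + 1) × Th W S e) : (h.fr c).ι :=
  ⟨Sum.inr k, fun ⟨_, k⟩ => Sum.inl_ne_inr k⟩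

/-- the integer family of the removed coordinates -/
def J (c : ℝ) : Fam ℤ (Lv T (e + 1)) (h.fr c).ι W S :=
  ⟨fun o a => rename (h.e' c) (map C (φ a)) +
    ∑ μ : Mn W e, C (monomial μ.1 1) * X (h.ln c (a, μ, tb o μ.1))⟩

theorem J_ok (hφ : Mor j T₀ T φ) (hj : e + 1 < j) (c : ℝ) :
    (h.J c).Ok (fun _ => e + 1) (h.fr c).lv := by
  refine ⟨fun o a => JH.add (JH.rename (JH.of_hom fun β k =>
    (hφ.hom a (a.2.trans_lt hj) k).trans a.2) h.ev)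
    (JH.sum _ fun μ _ => ?_), fun t a => ?_⟩
  · have h1 := (JH.C (lw := (h.fr c).lv) (isHomogeneous_monomial (1 : ℤ) (d := μ.1) rfl)).mul
      (JH.X (h.fr c).lv (h.ln c (a, μ, tb o μ.1)))
    have h2 := mem_Mn.1 μ.2
    rwa [show μ.1.degree + (h.fr c).lv (h.ln c (a, μ, tb o μ.1)) = e + 1 from
      Nat.add_sub_cancel' (by omega)] at h1
  · simp only [J, map_add, map_sum, map_mul, map_C, map_X, kt_monomial]
    refine congrArg _ (sum_congr rfl fun μ _ => ?_)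
    unfold tb
    split_ifs <;> simp

theorem J_top (c : ℝ) (a : Lv T (e + 1)) : (h.J c).top a = rename (h.e' c) (φ a) := by
  have h1 : ∀ μ : Mn W e, constantCoeff (monomial μ.1 (1 : ℤ)) = 0 := fun μ => by
    rw [constantCoeff_monomial, if_neg fun k => by simpa [k] using (mem_Mn.1 μ.2).1]
  simp only [Fam.top, J, map_add, map_sum, map_mul, map_C, map_X, h1, map_zero, zero_mul,
    sum_const_zero, add_zero, map_rename, MvPolynomial.map_map, constantCoeff_comp_C,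
    MvPolynomial.map_id]

end Inv

end

end Vale.Agent.P057XL
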