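import Vale.Agent.P057XL.Frm
import Vale.Agent.P057AD.Pos
import Vale.Agent.P057TE.Cert
import Mathlib.Algebra.Order.Antidiag.FinsuppEquiv

/-!
Coefficients of families, Gram matrices of links, scaling.
-/

set_option linter.all false

open Matrix Finset MvPolynomial
open Vale.Agent.P267.H775 Vale.Agent.P057G Vale.Agent.P057PC Vale.Agent.P057TP Vale.Agent.P057AD

namespace Vale.Agent.P057XL

noncomputable section

variable {W S ι κ : Type}

/-- the coefficient of a monomial of `Lam` -/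
def cf (μ : Option W →₀ ℕ) (p : MvPolynomial κ (Lam ℝ W)) : MvPolynomial κ ℝ :=
  ∑ β ∈ p.support, monomial β (coeff μ (coeff β p))

theorem coeff_cf (μ : Option W →₀ ℕ) (p : MvPolynomial κ (Lam ℝ W)) (β : κ →₀ ℕ) :
    coeff β (cf μ p) = coeff μ (coeff β p) := by
  classical
  simp only [cf, coeff_sum, coeff_monomial, sum_ite_eq']
  split_ifs with h
  exacts [rfl, by rw [notMem_support_iff.1 h, coeff_zero]]

theorem cf_hom {lw : κ → ℕ} {p : MvPolynomial κ (Lam ℝ W)} {d : ℕ} (h : JH lw p d)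
    (μ : Option W →₀ ℕ) : (cf μ p).IsWeightedHomogeneous lw (d - μ.degree) := fun β k => by
  have := h β μ (by rwa [coeff_cf] at k)
  omega

/-- the base of a link -/
def tb (o : Option S) (μ : Option W →₀ ℕ) : Option S := if μ none = 0 then none else o

variable [DecidableEq W]

theorem cf_tb {Φ : Fam ℝ ι κ W S} {lv : ι → ℕ} {lw : κ → ℕ} (h : Φ.Ok lv lw) (o : Option S) (a : ι)
    (μ : Option W →₀ ℕ) : cf μ (Φ.fn (tb o μ) a) = cf μ (Φ.fn o a) := by
  unfold tb
  split_ifs with k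
  · cases o with
    | none => rfl
    | some t =>
      ext β
      have := congrArg (fun p => coeff μ (coeff β p)) (h.pure t a)
      simp only [coeff_map, coeff_kt, if_pos k] at this
      rw [coeff_cf, coeff_cf, this]
  · rfl

variable [Fintype W]

variable (W) in
/-- the monomials of degree between one and `e` -/
def Mn (e : ℕ) : Finset (Option W →₀ ℕ) := (Icc 1 e).biUnion fun d => finsuppAntidiag univ d

theorem mem_Mn {e : ℕ} {μ : Option W →₀ ℕ} : μ ∈ Mn W e ↔ 1 ≤ μ.degree ∧ μ.degree ≤ e := by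
  simp [Mn, Finsupp.degree_eq_sum, and_assoc]

theorem card_Mn (e : ℕ) : (Mn W e).card ≤ e * (Fintype.card W + e) ^ e := by
  refine card_biUnion_le.trans ((sum_le_card_nsmul _ _ ((Fintype.card W + e) ^ e)
    fun d hd => ?_).trans (by simp))
  have h := mem_Icc.1 hd
  rw [card_finsuppAntidiag_nat_eq_choose, card_univ, Fintype.card_option]
  exact (Nat.choose_le_pow _ _).trans ((Nat.pow_le_pow_left (by omega) _).trans
    (Nat.pow_le_pow_right (by omega) h.2))

theorem cf_dec {lw : κ → ℕ} (hp : ∀ b, 0 < lw b) {p : MvPolynomial κ (Lam ℝ W)} {e : ℕ}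
    (h : JH lw p (e + 1)) : p = map C (map constantCoeff p) +
      ∑ μ : Mn W e, C (monomial μ.1 1) * map C (cf μ.1 p) + C (coeff 0 p) := by
  classical
  ext β ν
  rw [sum_coe_sort (Mn W e) fun μ => C (monomial μ 1) * map C (cf μ p)]
  simp only [coeff_add, coeff_sum, coeff_C_mul, coeff_map, coeff_cf, coeff_C, constantCoeff_eq,
    mul_comm (monomial _ _), coeff_monomial, mul_ite, mul_one, mul_zero, sum_ite_eq', mem_Mn]
  have h0 : β ≠ 0 → 1 ≤ Finsupp.weight lw β := fun k => by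
    obtain ⟨b, hb⟩ := Finsupp.ne_iff.1 k
    exact (hp b).trans_le (Finsupp.le_weight_of_ne_zero' lw hb)
  by_cases k : coeff ν (coeff β p) = 0
  · split_ifs with k1 k2 k3 k4 k5 k6 k7 <;> simp_all
  have h1 := h β ν k
  by_cases k1 : 0 = β
  · subst k1
    rw [map_zero] at h1
    rw [if_neg (fun k2 => by simp [← k2] at h1), if_neg (by omega), if_pos rfl]; simp
  have h2 := h0 (Ne.symm k1)
  by_cases k2 : 0 = ν
  · subst k2; simp [k1]
  · have : ν.degree ≠ 0 := fun m => k2 ((Finsupp.degree_eq_zero_iff ν).1 m).symm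
    rw [if_neg k2, if_pos (by omega), if_neg k1]; simp

theorem eval_dec {lw : κ → ℕ} (hp : ∀ b, 0 < lw b) {p : MvPolynomial κ (Lam ℝ W)} {e : ℕ}
    (h : JH lw p (e + 1)) (B : Finset W) (y : κ → ℝ) :
    eval y (map (evA B) p) = eval y (map constantCoeff p) +
      ∑ μ : Mn W e, evA B (monomial μ.1 1) * eval y (cf μ.1 p) + evA B (coeff 0 p) := by
  have e1 : ∀ R : MvPolynomial κ ℝ, map (evA B) (map C R : MvPolynomial κ (Lam ℝ W)) = R :=
    fun R => by rw [MvPolynomial.map_map, show (evA B).comp C = RingHom.id ℝ from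
      RingHom.ext (evA_C B), MvPolynomial.map_id]
  conv_lhs => rw [cf_dec hp h]
  simp only [map_add, map_sum, map_mul, map_C, eval_C, e1]

section gk

variable {A Θ : Type} [Fintype A] [DecidableEq A] [Fintype Θ] [DecidableEq Θ] {G : Matrix A A ℝ}
  {c : ℝ}

/-- copies of a scaled Gram matrix -/
def gk (Θ : Type) [DecidableEq Θ] (c : ℝ) (G : Matrix A A ℝ) : Matrix (A × Θ) (A × Θ) ℝ :=
  blockDiagonal fun _ => c • G

theorem qq_gk (w : A × Θ → ℝ) : qq (gk Θ c G) w = ∑ θ, c * qq G fun a => w (a, θ) := by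
  simp only [qq, gk, dotProduct, mulVec, Fintype.sum_prod_type_right, blockDiagonal_apply, ite_mul,
    zero_mul, mul_sum, Matrix.smul_apply, smul_eq_mul]
  refine sum_congr rfl fun θ _ => sum_congr rfl fun a _ => ?_
  rw [sum_eq_single θ (fun b _ k => by simp [k.symm]) (by simp)]
  exact sum_congr rfl fun b _ => by simp [mul_left_comm, mul_assoc]

theorem gk_le (hG : G.PosDef) (hc : 0 ≤ c) (w : A × Θ → ℝ) (θ : Θ) :
    c * qq G (fun a => w (a, θ)) ≤ qq (gk Θ c G) w := by
  rw [qq_gk]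
  exact single_le_sum (f := fun θ => c * qq G fun a => w (a, θ))
    (fun _ _ => mul_nonneg hc (qq_nonneg hG.posSemidef _)) (mem_univ θ)

theorem pd_gk (hG : G.PosDef) (hc : 0 < c) : (gk Θ c G).PosDef := by
  refine PosDef.of_dotProduct_mulVec_pos ?_ fun w hw => ?_
  · rw [IsHermitian, gk, blockDiagonal_conjTranspose]
    exact congrArg _ (funext fun _ => (hG.smul hc).1)
  obtain ⟨⟨a, θ⟩, h⟩ := Function.ne_iff.1 hw
  exact (mul_pos hc (P057MA.qq_pos hG (Function.ne_iff.2 ⟨a, h⟩))).trans_le (gk_le hG hc.le w θ)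

theorem gk_blk (f : Θ → ℕ) (k k' : A × Θ) (h : f k.2 ≠ f k'.2) : gk Θ c G k k' = 0 :=
  blockDiagonal_apply_ne _ _ _ fun e => h (congrArg f e)

theorem log_gk (hG : G.PosDef) (hc : 0 < c) (p : Θ → Prop) [DecidablePred p] :
    Real.log (bk (gk Θ c G) fun k => p k.2).det =
      Fintype.card {θ // p θ} * (Fintype.card A * Real.log c + Real.log G.det) := by
  let E : A × {θ // p θ} ≃ {k : A × Θ // p k.2} :=
    ⟨fun x => ⟨(x.1, x.2.1), x.2.2⟩, fun k => (k.1.1, ⟨k.1.2, k.2⟩), fun _ => rfl, fun _ => rfl⟩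
  have h : (bk (gk Θ c G) fun k => p k.2).submatrix E E = blockDiagonal fun _ => c • G := by
    ext ⟨a, θ⟩ ⟨b, θ'⟩
    exact @if_congr _ _ _ (_) (_) _ _ _ _ Subtype.ext_iff.symm rfl rfl
  rw [← det_submatrix_equiv_self E, h, det_blockDiagonal, prod_const, card_univ, Real.log_pow,
    det_smul, Real.log_mul (pow_pos hc _).ne' hG.det_pos.ne', Real.log_pow]

end gk

variable {T T₀ : Tow} {s s' j : ℕ} {N : ℝ} {φ : T.ι → MvPolynomial T₀.ι ℤ}

theorem ln_le (hG : T.G.PosDef) (hb : ∀ a b, T.lv a ≠ T.lv b → T.G a b = 0) (i : ℕ) (y : T.ι → ℝ) :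
    T.ln i y ≤ qq T.G (T.ps y) := by
  have h := P057TE.qq_rs_le (P := fun a => T.lv a = i) hG
    (fun a b ha k => hb a b fun e => k (e.symm.trans ha)) (T.ps y)
  rw [← P057TE.qq_ez] at h
  refine le_of_eq_of_le (congrArg _ (funext fun a => ?_)) h
  by_cases k : T.lv a = i <;> simp [P057TE.ez, k, rs]

theorem ln_bk (i : ℕ) (y : T.ι → ℝ) :
    qq (bk T.G fun a => T.lv a = i) (fun a => T.ps y a) = T.ln i y := by
  rw [← P057TE.qq_ez]
  refine congrArg _ (funext fun a => ?_)
  by_cases k : T.lv a = i <;> simp [P057TE.ez, k]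

/-- on a small ball the positions of the image are small -/
theorem ln_small (hT : T.Ok s N) (h0 : T₀.Ok s' N) (hs : s' ≤ s) (hφ : Mor j T₀ T φ) {t : ℝ}
    (t0 : 0 < t) (t1 : t ≤ 1) {y : T₀.ι → ℝ} (hy : qq T₀.G (T₀.ps y) ≤ (t ^ s) ^ 2) {E : ℕ}
    (h1 : 1 ≤ E) (hE : E < j) : T.ln E (ap φ y) ≤ t ^ 2 := by
  have h2 : T₀.Ball j fun a => t⁻¹ ^ T₀.lv a * y a := fun i _ => by
    rw [P057TE.ln_scale h0]
    by_cases k : i ≤ s
    · rw [inv_pow, inv_pow, inv_mul_le_iff₀ (by positivity), mul_one]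
      exact ((ln_le h0.pd h0.blk i y).trans hy).trans
        (pow_le_pow_left₀ (by positivity) (pow_le_pow_of_le_one t0.le t1 k) 2)
    · have : T₀.ln i y = 0 := by
        refine (congrArg (qq T₀.G) (funext fun a => if_neg fun e => ?_)).trans (qq_zero T₀.G)
        have := h0.le a
        omega
      rw [this]; simp
  have h3 := hφ.ball _ h2 E hE
  have h4 : ∀ a, T.lv a ≤ E → ap φ y a = t ^ T.lv a * ap φ (fun a => t⁻¹ ^ T₀.lv a * y a) a :=
    fun a ha => by
      rw [ap, ap, P057TE.aeval_scale (hφ.hom a (ha.trans_lt hE)), ← mul_assoc, ← mul_pow,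
        mul_inv_cancel₀ t0.ne', one_pow, one_mul]
  have h5 : T.ln E (ap φ y) =
      T.ln E fun a => t ^ T.lv a * ap φ (fun a => t⁻¹ ^ T₀.lv a * y a) a := by
    refine congrArg (qq T.G) (funext fun a => ?_)
    split_ifs with k
    · exact congrArg₂ (· - ·) (h4 a k.le) (eval₂Hom_congr' rfl
        (fun b hb _ => h4 b (k ▸ (hT.low a b hb).le)) rfl)
    · rfl
  rw [h5, P057TE.ln_scale hT]
  refine (mul_le_of_le_one_right (sq_nonneg _) h3).trans (pow_le_pow_left₀ (by positivity) ?_ 2)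
  exact pow_le_of_le_one t0.le t1 (by omega)

end

end Vale.Agent.P057XL
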