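import Vale.Agent.P057XL.Inv

/-!
The structural part of one step.
-/

set_option linter.all false

open Matrix Finset MvPolynomial
open Vale.Agent.P267.H775 Vale.Agent.P057G Vale.Agent.P057PC Vale.Agent.P057TP Vale.Agent.P057AD

namespace Vale.Agent.P057XL

noncomputable section

variable {D W S : Type}

theorem cmp_fn {R ι κ ν : Type} [CommRing R] (Φ : Fam R ι κ W S) (Ψ : Fam ℤ κ ν W S)
    (o : Option S) (a : ι) : (Φ.cmp Ψ).fn o a = bind₁ (fun b => lamZ R (Ψ.fn o b)) (Φ.fn o a) := rfl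

theorem cmp_assoc {R ι κ ν τ : Type} [CommRing R] (Φ : Fam R ι κ W S) (Ψ : Fam ℤ κ ν W S)
    (Ψ' : Fam ℤ ν τ W S) (o : Option S) (a : ι) :
    ((Φ.cmp Ψ).cmp Ψ').fn o a = (Φ.cmp (Ψ.cmp Ψ')).fn o a := by
  simp only [Fam.cmp, bind₁_bind₁, lamZ_int]
  simp only [lamZ, map_bind₁]

theorem top_cmpZ {ι κ ν : Type} (Φ : Fam ℤ ι κ W S) (Ψ : Fam ℤ κ ν W S) (a : ι) :
    (Φ.cmp Ψ).top a = bind₁ Ψ.top (Φ.top a) := by
  rw [Fam.cmp_eq, Fam.cast_int, Fam.top_cmr]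

theorem gad_inr {ι κ : Type} [Fintype ι] [DecidableEq ι] [Fintype κ] [DecidableEq κ]
    {G : Matrix ι ι ℝ} {K : Matrix κ κ ℝ} {L : Matrix κ ι ℝ} (v : ι ⊕ κ → ℝ)
    (h : v ∘ Sum.inl = 0) : qq (gad G K L) v = qq K (v ∘ Sum.inr) := by
  rw [qq_gad, h, qq_zero, zero_add, mulVec_zero, sub_zero]

section ex

variable {T : Tow} {A : Type} [Fintype A] [DecidableEq A] {ρ : A → T.ι} {GA : Matrix A A ℝ}
  {R : Type} [Zero R]

/-- extension by zero -/
def ex0 (ρ : A → T.ι) (x : {y // y ∉ Set.range ρ} → R) (y : T.ι) : R :=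
  if k : y ∈ Set.range ρ then 0 else x ⟨y, k⟩

theorem ex0_val (x : {y // y ∉ Set.range ρ} → R) (b : {y // y ∉ Set.range ρ}) :
    ex0 ρ x b.1 = x b := dif_neg b.2

theorem ex0_rho (x : {y // y ∉ Set.range ρ} → R) (a : A) : ex0 ρ x (ρ a) = 0 := dif_pos ⟨a, rfl⟩

theorem toR_ex0 (x : {y // y ∉ Set.range ρ} → ℤ) : toR (ex0 ρ x) = ex0 ρ (toR x) :=
  funext fun y => by unfold ex0; rw [toR_apply]; split_ifs <;> simp

theorem qq_ex0 (hB : Blk T ρ GA) (hG : T.G.PosDef) (x : {y // y ∉ Set.range ρ} → ℝ) :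
    qq T.G (ex0 ρ x) = qq (bk T.G (· ∉ Set.range ρ)) x := by
  rw [hB.qq hG, show ex0 ρ x ∘ ρ = 0 from funext (ex0_rho x), qq_zero, add_zero]
  exact congrArg _ (funext (ex0_val x))

end ex

variable [Fintype W] [DecidableEq W] [Fintype S]
  {s j m e : ℕ} {N x0 : ℝ} {T T₀ T1 : Tow} {φ : T.ι → MvPolynomial T₀.ι ℤ} {cl : W → D}
  {Z : Sys T W S} {Z1 : Sys T1 W S} {Ψ : Fam ℤ T.ι T1.ι W S} {ε : T₀.ι → T1.ι}
  {ρ : {a // e < T.lv a} → T1.ι} {c : ℝ}

theorem Gk_sep (hT : T.Ok s N) (hc : 1 ≤ c) {w : Lv T (e + 1) × Th W S e → ℤ} (hw : w ≠ 0) :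
    1 ≤ qq (Gk T W S e c) (toR w) := by
  obtain ⟨⟨a, θ⟩, k⟩ := Function.ne_iff.1 hw
  have h1 := lkv_mem (a, θ)
  have h2 := hT.sep _ (P057TE.ez_ne (z := fun a => w (a, θ)) (Function.ne_iff.2 ⟨a, k⟩)) (by
    rw [P057TE.dot_ez]
    exact sum_eq_zero fun b _ => mul_eq_zero_of_left (hT.el1 b (by have := b.2; omega)) _)
  rw [P057TE.toR_ez, P057TE.qq_ez] at h2
  exact (h2.trans (le_mul_of_one_le_left (by linarith) hc)).trans
    (gk_le (posDef_bk hT.pd _) (by linarith) (toR w) θ)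

theorem fn_inl {K : Type} [Fintype K] [DecidableEq K] {lk : K → ℕ} {Q : K → MvPolynomial T.ι ℝ}
    {G : Matrix K K ℝ} {x : Lb (T.add K lk Q G) cl S m → ℝ}
    (hx : ∀ l a, l.cd = Sum.inl a → x l = 0) (o : Option S) (a : T.ι) :
    (Z.add K lk Q G x).fam.fn o (Sum.inl a) = rename (jl Q G) (Z.fam.fn o a) := by
  have h1 : lift x o (jl Q G a) = 0 := sum_eq_zero fun l _ => by
    split_ifs with k
    exacts [by rw [hx l a k.1, C_0, zero_mul], rfl]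
  refine (fn_add x o (jl Q G a)).trans ?_
  rw [h1, C_0, zero_add]
  rfl

/-- the system with the links -/
def Z2 (Z1 : Sys T1 W S) (x : Lb (T2 Z1 ρ c) cl S m → ℝ) : Sys (T2 Z1 ρ c) W S :=
  Z1.add _ lkv (Qk Z1 ρ) (Gk T W S e c) x

namespace Inv

variable (h : Inv s j x0 φ cl m Z e Z1 Ψ ε ρ) {x : Lb (T2 Z1 ρ c) cl S m → ℝ}
  (n : Lb (h.fr c).tA cl S m → ℤ)

/-- the next tower -/
abbrev T3 (c : ℝ) : Tow := (h.fr c).tow (h.J c).top

/-- the substitution of the step, with the links -/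
abbrev P2 : Fam ℤ (T2 Z1 ρ c).ι (h.T3 c).ι W S := (h.fr c).fam (h.J c) n

/-- the substitution of the step -/
def P1 : Fam ℤ T1.ι (h.T3 c).ι W S := ⟨fun o a => (h.P2 n).fn o (Sum.inl a)⟩

variable (x) in
/-- the next system -/
abbrev Z3 : Sys (h.T3 c) W S := (h.fr c).sys (Z2 Z1 x) (h.J c) n

theorem sub_P1 (z : Lb (h.T3 c) cl S m → ℤ) :
    (h.P1 n).sub cl m z = (h.P2 n).sub cl m z ∘ il := rfl

theorem P2_val (o : Option S) (b : (h.fr c).ι) : (h.P2 n).fn o b.1 = X b := fam_val n o b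

theorem Z3_inl (hx : ∀ l a, l.cd = Sum.inl a → x l = 0) (o : Option S) (b : (h.fr c).ι) {a : T1.ι}
    (k : b.1 = Sum.inl a) : (h.Z3 x n).fam.fn o b = (Z1.fam.cmp (h.P1 n)).fn o a := by
  refine (sys_val _ n o b).trans ?_
  rw [k]
  exact (congrArg (bind₁ _) (fn_inl hx o a)).trans (bind₁_rename _ _ _)

variable (hT : T.Ok s N) (hφ : Mor j T₀ T φ) (hj : e + 1 < j) (hc : 1 ≤ c) (hs : j ≤ s + 1)
include h hT hφ hj hc hs

theorem fr_ok : (h.fr c).Ok := frm_ok (h.ok2 hT.pd (by omega) (by linarith)) (h.blk hT c)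

theorem P2_ok : (h.P2 n).Ok (T2 Z1 ρ c).lv (h.T3 c).lv :=
  P057CU.ok_fam (h.fr_ok hT hφ hj hc hs) (h.J_ok hφ hj c) n

theorem P1_ok : (h.P1 n).Ok T1.lv (h.T3 c).lv :=
  ⟨fun o a => (h.P2_ok n hT hφ hj hc hs).hom o (Sum.inl a),
    fun o a => (h.P2_ok n hT hφ hj hc hs).pure o (Sum.inl a)⟩

theorem Z2_ok (x : Lb (T2 Z1 ρ c) cl S m → ℝ) : (Z2 Z1 x).Ok :=
  ok_sys (h.ok2 hT.pd (by omega) (by linarith)).pos h.zok h.Qk_hom x

theorem qq_T3 (v : (h.fr c).ι → ℝ) :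
    qq (T2 Z1 ρ c).G (ex0 (T := T2 Z1 ρ c) (fun a => Sum.inl (rA ρ a)) v) = qq (h.T3 c).G v :=
  qq_ex0 (h.blk hT c) (h.ok2 hT.pd (by omega) (by linarith)).pd v

theorem step (hm : j ≤ m) (hx : ∀ l a, l.cd = Sum.inl a → x l = 0) :
    Inv s j x0 φ cl m Z (e + 1) (h.Z3 x n) (Ψ.cmp (h.P1 n)) (h.e' c) (h.r' c) := by
  have h2 := h.ok2 (c := c) hT.pd (by omega) (by linarith)
  have hF := h.fr_ok hT hφ hj hc hs
  have hJ := h.J_ok hφ hj c
  have hk := Gk_pd (W := W) (S := S) (e := e) hT.pd (show 0 < c by linarith)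
  have h3 : (h.T3 c).Ok0 s :=
    P057CU.ok0_tow h2 hF hJ.top_hom (frm_jok hJ).low (by omega) (by omega)
  have h4 : ∀ a : {a // e < T.lv a}, Ψ.top a = X (ρ a) := fun a => by rw [Fam.top, h.rv, map_X]
  have h5 : ∀ b : (h.fr c).ι, (h.P2 n).top b.1 = X b := fun b => by rw [Fam.top, h.P2_val, map_X]
  refine ⟨h3, P057CU.ok_sys hF (h.Z2_ok hT hφ hj hc hs x) hJ (by omega) n,
    h.pok.cmp (h.P1_ok n hT hφ hj hc hs),
    fun a b k => h.ei (Sum.inl_injective (congrArg Subtype.val k)), h.ev,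
    fun a b k => Subtype.ext (congrArg (·.1) (h.ri (Sum.inl_injective (congrArg Subtype.val k)))),
    fun a => h.rl _, fun a b k => h.er _ _ (Sum.inl_injective (congrArg Subtype.val k)),
    fun o a => ?_, fun o a => ?_, fun o a => ?_, fun a b => (h.G2 c _ _).trans (h.rg _ _),
    fun a y hy => (h.G2 c _ _).trans ?_, ?_, fun a ha => ?_, fun v => ?_, fun y => ?_,
    fun z hz k _ => ?_, fun f z A hA t => ?_⟩
  · rw [h.Z3_inl n hx o _ rfl, cmp_fn, h.ef, bind₁_rename, rename_eq_aeval]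
    refine congrArg (fun g => bind₁ g (map C (T₀.q a))) (funext fun b => ?_)
    exact (congrArg (lamZ ℝ) (h.P2_val n o (h.e' c b))).trans (map_X _ _)
  · rw [cmp_fn, h.rv o ⟨a.1, (Nat.lt_succ_self e).trans a.2⟩, bind₁_X_right, lamZ_int]
    exact h.P2_val n o (h.r' c a)
  · rw [h.Z3_inl n hx o _ rfl, ← cmp_assoc]
    exact congrArg (bind₁ _) (h.rf o _)
  · obtain ⟨y | y, k⟩ := y
    · refine h.ro _ y fun ⟨b, k2⟩ => ?_
      rcases (Nat.succ_le_of_lt b.2).eq_or_lt with k3 | k3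
      exacts [k ⟨⟨b.1, k3.symm⟩, congrArg Sum.inl k2⟩,
        hy ⟨⟨b.1, k3⟩, Subtype.ext (congrArg Sum.inl k2)⟩]
    · rfl
  · rintro ⟨y | y, k⟩ hy
    · obtain ⟨b, rfl⟩ := h.su y hy
      exact ⟨⟨b.1, hj.trans_le (hy.trans_eq (h.rl b))⟩, rfl⟩
    · exact absurd (hy.trans (lkv_mem y).2) (by omega)
  · rw [top_cmpZ]
    rcases ha.eq_or_lt with k | k
    · rw [h4 ⟨a, k.ge⟩, bind₁_X_right, ← h.J_top c ⟨a, k⟩]
      refine (congrArg (MvPolynomial.map constantCoeff) (fam_rho (h.blk hT c).inj n none ⟨a, k⟩)).trans ?_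
      have k2 := constantCoeff_lift (T := (h.fr c).tA) (fun _ => Nat.succ_pos e) n none ⟨a, k⟩
      rw [map_add, map_C]
      exact (congrArg (_ + C ·) k2).trans (by rw [C_0, add_zero]; rfl)
    · rw [h.tp a (by omega), bind₁_rename, rename_eq_aeval]
      exact congrArg (fun g => bind₁ g (φ a)) (funext fun b => h5 (h.e' c b))
  · rw [← h.qq_T3 hT hφ hj hc hs v]
    refine le_trans (le_of_eq_of_le ?_ (h.dom _)) (qq_le_gad T1.G hk _ _)
    exact congrArg (fun u => x0 * qq T₀.G u) (funext fun a => (ex0_val v (h.e' c a)).symm)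
  · refine (P057CU.pel_dot h2.el1 h3.pos (P057CU.psi_hom hF hJ.top_hom) y).trans
      ((dot_inl' T1.el _).trans ((h.el _).trans (congrArg _ ?_)))
    rw [funext (top_cmpZ Ψ (h.P1 n)), P057RG.ap_bind]
    have k : (h.P2 n).top = (h.fr c).psi (h.J c).top := P057CU.top_fam (Nat.succ_pos e) n
    exact congrArg (ap Ψ.top) (funext fun b => congrArg (aeval y) (congrFun k (Sum.inl b)).symm)
  · refine le_of_le_of_eq ?_ ((congrArg _ (toR_ex0 z)).trans (h.qq_T3 hT hφ hj hc hs _))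
    set v := ex0 (T := T2 Z1 ρ c) (fun a => Sum.inl (rA ρ a)) z with hv
    have k1 : (v ∘ Sum.inl) ∘ ε = z ∘ h.e' c := funext fun a => ex0_val z (h.e' c a)
    by_cases k2 : v ∘ Sum.inl = 0
    · refine le_trans ?_ (gad_inr (toR v) (funext fun a => Int.cast_eq_zero.2 (congrFun k2 a))).ge
      refine Gk_sep hT hc (w := v ∘ Sum.inr) fun k3 => hz (funext fun b => ?_)
      rw [← ex0_val z b]
      rcases b.1 with y | y
      exacts [congrFun k2 y, congrFun k3 y]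
    refine (h.sep _ k2 (k1 ▸ k) ?_).trans (qq_le_gad T1.G hk _ (toR v))
    refine Int.cast_eq_zero.1 ((dot_cast _ _).symm.trans ?_)
    rcases Nat.eq_zero_or_pos e with k3 | k3
    · refine (h.el _).trans (sum_eq_zero fun a _ => ?_)
      by_cases k4 : T.lv a = e + 1
      · rw [ap, h4 ⟨a, k4.ge⟩, aeval_X]
        exact mul_eq_zero_of_right _ (Int.cast_eq_zero.2 (ex0_rho z ⟨a, k4⟩))
      · simp [hT.el1 a (by omega)]
    · refine (h.el_eq hT hφ k3 (by omega) _).trans ((dot_cast T₀.el ((v ∘ Sum.inl) ∘ ε)).trans ?_)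
      rw [k1, k, Int.cast_zero]
  · classical
    rw [h.pok.sub_cmp (h.P1_ok n hT hφ hj hc hs), ← h.cel f _ A hA t, h.sub_P1]
    exact (P057CU.F_sys h2 hF hJ (by omega) (by omega) n f z (mem_filter.1 hA).2.1 t).trans
      (F_add (fun k => by have := (lkv_mem k).2; omega) hx f _ A t)

end Inv

end

end Vale.Agent.P057XL
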