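import Vale.Agent.P057XL.Step
import Vale.Agent.P057IN.Ins
import Vale.Agent.P057SH.Aux1

/-!
The first state and the last state.
-/

set_option linter.all false

open Matrix Finset MvPolynomial
open Vale.Agent.P267.H775 Vale.Agent.P057G Vale.Agent.P057PC Vale.Agent.P057TP Vale.Agent.P057AD
open Vale.Agent.P057IN Vale.Agent.P057TE

namespace Vale.Agent.P057XL

noncomputable section

variable {D W S : Type} [Fintype W] [DecidableEq W] [Fintype S]
  {s s' j m e : ℕ} {N x0 : ℝ} {T T₀ T1 : Tow} {φ : T.ι → MvPolynomial T₀.ι ℤ} {cl : W → D}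
  {Z : Sys T W S} {Z1 : Sys T1 W S} {Ψ : Fam ℤ T.ι T1.ι W S} {ε : T₀.ι → T1.ι}
  {ρ : {a // e < T.lv a} → T1.ι}

theorem dm_zero (h : ∀ a, 0 < T.lv a) : T.dm 0 = 0 := by
  rw [Tow.dm, filter_false_of_mem fun a _ => (h a).ne', card_empty, Nat.cast_zero]

theorem ld_zero (h : ∀ a, 0 < T.lv a) : ld T 0 = 0 := by
  have : IsEmpty {a // T.lv a = 0} := ⟨fun a => (h a).ne' a.2⟩
  rw [ld, det_isEmpty, Real.log_one, zero_div]

theorem ok0_nar (h0 : T₀.Ok s' N) (hs : s' ≤ s) (hx : 1 ≤ x0) : (T₀.nar fun _ => x0).Ok s N :=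
  have h := P057NA.ok_nar (lam := fun _ => x0) h0 fun _ => hx
  ⟨h.pos, fun a => (h.le a).trans hs, h.hom, h.low, h.pd, h.blk, h.el1, h.sep, h.elN⟩

theorem init (hT : T.Ok s N) (hZ : Z.Ok) (h0 : T₀.Ok s' N) (hs' : s' < j) (hs : j ≤ s + 1)
    (hm : j ≤ m) (hx : 1 ≤ x0) : Inv s j x0 φ cl m Z 0 (uns Z (T₀.nar fun _ => x0))
      (Fam.ren W S Sum.inl) Sum.inr fun a => Sum.inl a.1 := by
  have h1 := ok0_nar h0 (s := s) (by omega) hx
  refine ⟨ok0_un hT.ok0 h1.ok0, ok_uns h1.ok0 hZ, ok_ren fun _ => rfl, Sum.inr_injective,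
    fun _ => rfl, Sum.inl_injective.comp Subtype.val_injective, fun _ => rfl,
    fun _ _ => Sum.inr_ne_inl, fun _ _ => rfl, fun _ _ => rfl, fun o a => ?_, fun _ _ => rfl, ?_,
    ?_, fun a k => absurd (hT.pos a) (not_lt.2 k), fun x => ?_, fun y => ?_, fun z hz k k2 => ?_,
    fun f z c _ t => ?_⟩
  rotate_right
  · exact F_uns (T0 := T₀.nar fun _ => x0) (fun b => (h0.le b).trans_lt (hs'.trans_le hm)) f z c t
  · refine (congrFun (congrArg DFunLike.coe (rename_eq_aeval _)) _).trans ?_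
    exact congrArg (fun g => bind₁ g (Z.fam.fn o a)) (funext fun b => (map_X _ _).symm)
  · rintro a (b | b) k
    exacts [absurd ⟨⟨b, hT.pos b⟩, rfl⟩ k, rfl]
  · rintro (b | b) k
    exacts [⟨⟨b, hT.pos b⟩, rfl⟩, absurd (k.trans (h0.le b)) (not_le.2 hs')]
  · exact ((qq_smul_mat _ _ _).symm.trans_le (le_add_of_nonneg_left
      (qq_nonneg hT.pd.posSemidef _))).trans_eq (qq_blocks _ _ x).symm
  · refine (dot_inl' T.el y).trans (congrArg _ (funext fun a => ?_))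
    rw [ap, top_ren, aeval_X]
    rfl
  · refine le_of_le_of_eq ?_ (qq_blocks _ _ _).symm
    by_cases k3 : z ∘ Sum.inl = 0
    · refine le_add_of_nonneg_of_le (qq_nonneg hT.pd.posSemidef _) (h1.sep (z ∘ Sum.inr)
        (fun k4 => hz (funext ?_)) k)
      rintro (b | b)
      exacts [congrFun k3 b, congrFun k4 b]
    · exact le_add_of_le_of_nonneg (hT.sep _ k3 ((dot_inl T.el z).symm.trans k2))
        (qq_nonneg h1.pd.posSemidef _)

theorem initQ {a : Par} {P : ℕ → ℝ} {H : (Lb T cl S m → ℤ) → ℝ} {B κ σ σ' : ℝ} (hT : T.Ok s N)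
    (hZ : Z.Ok) (h0 : T₀.Ok s' N) (hs : s' ≤ s) (hx : 1 ≤ a.x0) (hS : Z.St cl m H B κ σ)
    (hσ : 0 ≤ σ) (h2 : σ' ≤ σ * ng (Gam (T₀.nar fun _ => a.x0) cl S m) 0) :
    Qt a N P T₀ cl m Z H B κ σ' 0 (uns Z (T₀.nar fun _ => a.x0)) (Fam.ren W S Sum.inl) := by
  have h1 := ok0_nar h0 hs hx
  have h3 := st_uns hT.ok0 h1.ok0 hZ hσ hS
  refine ⟨⟨0, fun _ _ => rfl, by simp [nq_zero], fun z _ => ?_⟩, ⟨h3.1, ?_⟩, fun i => ?_, fun i => ?_⟩
  · rw [funext fun l : Lb T cl S m => if_neg (not_le.2 (hT.pos l.cd))]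
    exact nq_zero.trans_le (by simp)
  · simpa using h2.trans h3.2
  · refine (dm_un i).trans_le ?_
    change T₀.dm i + _ ≤ _
    rcases i with _ | i
    · simp [dm_zero hT.pos]
    · simp
  · refine (yy_un hT.pd h1.pd N i).trans_le ?_
    rw [P057SH.yy_nar h0.pd (one_pos.trans_le hx), ← ld, mul_div_assoc]
    rcases i with _ | i
    · simp [ld_zero hT.pos]
    · simp

/-- the upper levels as a tower -/
abbrev tU (T : Tow) (e : ℕ) : Tow where
  ι := {a // e < T.lv a}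
  lv a := T.lv a
  q _ := 0
  G := bk T.G fun a => e < T.lv a
  el _ := 0

namespace Inv

variable (h : Inv s j x0 φ cl m Z e Z1 Ψ ε ρ)
include h

theorem qq_up (x : T1.ι → ℝ) : qq T.G (ez (fun a => e < T.lv a) (x ∘ ρ)) ≤ qq T1.G x := by
  rw [qq_ez, Blk.qq (T := T1) ⟨h.ri, h.rg, h.ro⟩ h.ok0.pd x]
  exact le_add_of_nonneg_left (qq_nonneg (posDef_bk h.ok0.pd _).posSemidef _)

theorem top_up (a : {a // e < T.lv a}) : Ψ.top a = X (ρ a) := by rw [Fam.top, h.rv, map_X]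

theorem ap_up (y : T1.ι → ℝ) (a : {a // e < T.lv a}) : ap Ψ.top y a = y (ρ a) := by
  rw [ap, h.top_up, aeval_X]

theorem q_up (hZ : Z.Ok) (a : {a // e < T.lv a}) (y : T1.ι → ℝ) :
    eval y (T1.q (ρ a)) = eval (ap Ψ.top y) (T.q a) := by
  rw [← h.zok.top, Fam.top, h.rf, ← Fam.top, Fam.top_cmp, hZ.top, eval_bind]
  exact congrArg (eval · _) (funext fun v => eval_map _ _ _)

theorem ps_eps (y : T1.ι → ℝ) (a : T₀.ι) : T1.ps y (ε a) = T₀.ps (y ∘ ε) a := by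
  rw [Tow.ps, ← h.zok.top, Fam.top, h.ef, map_rename, MvPolynomial.map_map, constantCoeff_comp_C,
    MvPolynomial.map_id, eval_rename]
  rfl

theorem mor (hT : T.Ok s N) (hZ : Z.Ok) (h0 : T₀.G.PosDef) (hφ : Mor j T₀ T φ) (hx : 1 ≤ x0)
    (hj : e < j) {k : ℕ} (hk : j ≤ k) : Mor k T1 T Ψ.top := by
  refine ⟨fun a _ => h.pok.top_hom a, fun y hy i hi => ?_, fun _ => h.el⟩
  by_cases k1 : e < i
  · refine (le_of_eq_of_le (congrArg _ (funext fun a => ?_)) (h.qq_up _)).trans (hy i hi)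
    by_cases k2 : e < T.lv a
    · rw [ez, dif_pos k2, Function.comp_apply, h.rl, Tow.ps, Tow.ps, h.q_up hZ, h.ap_up y ⟨a, k2⟩]
    · rw [ez, dif_neg k2, if_neg (by omega)]
  refine le_of_eq_of_le (congrArg (qq T.G) (_root_.funext fun a => ?_))
    (hφ.ball (y ∘ ε) (fun i' hi' => ?_) i (by omega))
  · split_ifs with k2
    swap
    · rfl
    have k3 : ∀ b, T.lv b ≤ e → ap Ψ.top y b = ap φ (y ∘ ε) b := fun b hb => by
      rw [ap, h.tp b hb, ap_rename]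
    rw [Tow.ps, Tow.ps, k3 a (by omega)]
    exact congrArg _ (eval₂Hom_congr' rfl (fun v hv _ => k3 v (by
      have := hT.low a v hv; omega)) rfl)
  · refine le_trans (le_trans (le_of_eq ?_) ((le_mul_of_one_le_left (qq_nonneg h0.posSemidef _)
      hx).trans (h.dom _))) (hy i' (hi'.trans_le hk))
    exact congrArg (qq T₀.G) (_root_.funext fun a => by rw [Function.comp_apply, h.ev, h.ps_eps])

theorem el_up (hT : T.Ok s N) (a : {a // e < T.lv a}) : T1.el (ρ a) = T.el a := by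
  by_cases k : T.lv a = 1
  · have h1 := h.el (Pi.single (ρ a) 1)
    have h2 : ap Ψ.top (Pi.single (ρ a) 1) = Pi.single a.1 1 := funext fun b => by
      have := a.2
      have := hT.pos b
      rw [h.ap_up _ ⟨b, by omega⟩]
      simp [Pi.single_apply, h.ri.eq_iff, Subtype.ext_iff]
    simpa [h2] using h1
  · rw [hT.el1 a k, h.ok0.el1 _ ((h.rl a).trans_ne k)]

theorem el_eps (hT : T.Ok s N) (hφ : Mor j T₀ T φ) (he : 1 ≤ e) (hj : e < j) (a : T₀.ι) :
    T1.el (ε a) = T₀.el a := by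
  have h1 := h.el_eq hT hφ he hj (Pi.single (ε a) 1)
  have h2 : (Pi.single (ε a) 1 : T1.ι → ℝ) ∘ ε = Pi.single a 1 := funext fun b => by
    simp [Pi.single_apply, h.ei.eq_iff]
  simpa [h2] using h1

theorem ok' (hT : T.Ok s N) (h0 : T₀.Ok e N) (hφ : Mor j T₀ T φ) (hx : 1 ≤ x0) (hj : e < j) :
    T1.Ok s N := by
  rcases e.eq_zero_or_pos with rfl | he
  · have : IsEmpty T₀.ι := ⟨fun a => (h0.pos a).not_ge (h0.le a)⟩
    refine h.ok0.ok (fun z hz k => h.sep z hz (by simp [dotProduct]) k) fun x => ?_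
    rw [h.el]
    refine (hT.elN _).trans (mul_le_mul_of_nonneg_left (le_of_eq_of_le (congrArg _
      (funext fun a => ?_)) (h.qq_up x)) (sq_nonneg N))
    rw [ez, dif_pos (hT.pos a)]
    exact h.ap_up x ⟨a, hT.pos a⟩
  · exact h.ok hT h0 hφ hx he hj

theorem nq_up (hZ : Z.Ok) (z : Lb T1 cl S m → ℤ) : nq (Gam T cl S m)
    (fun l => if e < T.lv l.cd then Z.ps cl m (Ψ.sub cl m z) l else 0) ≤ Z1.nrm cl m z := by
  refine Real.sqrt_le_sqrt ?_
  rw [qq_cpt, qq_cpt]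
  refine sum_le_sum fun F _ => le_of_eq_of_le (congrArg _ (funext fun a => ?_)) (h.qq_up _)
  by_cases k : e < T.lv a
  · rw [ez, dif_pos k, ← cpt_ren (T := tU T e) h.rl h.ri]
    refine (congrFun (cpt_ren (T := tU T e) (e := Subtype.val) (fun _ => rfl) Subtype.val_injective
      _ F) ⟨a, k⟩).symm.trans (congrArg (cpt · F _) (funext fun l => ?_))
    exact (if_pos l.cd.2).trans (h.ps_rho hZ z l.cd.2 rfl rfl rfl)
  · rw [ez, dif_neg k]
    exact sum_eq_zero fun l _ => (@ite_eq_right_iff _ _ (_) _ _).2 fun k2 => if_neg (k2.1.symm ▸ k)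

theorem blk_le (hT : T.G.PosDef) (hZ : Z.Ok) {x : Lb T cl S m → ℝ}
    (z : Lb T1 cl S m → ℤ) (hx : ∀ l, e < T.lv l.cd → x l = 0) :
    Z.nrm cl m (Ψ.sub cl m z) ≤ Z1.nrm cl m z + (nq (Gam T cl S m) x + nq (Gam T cl S m)
      fun l => if T.lv l.cd ≤ e then Z.ps cl m (Ψ.sub cl m z) l - x l else 0) := by
  have pG := P057GH.pd_Gam hT cl S m
  refine le_of_eq_of_le (congrArg (nq _) (funext fun l => ?_)) ((nq_add pG _ _).trans
    (add_le_add (h.nq_up hZ z) (nq_add pG _ _)))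
  by_cases k : e < T.lv l.cd
  · simp [k, hx l k, not_le.2 k]
  · simp [k, not_lt.1 k]

end Inv

/-- the bijection of the upper levels -/
def Inv.eqv (h : Inv s (e + 1) x0 φ cl m Z e Z1 Ψ ε ρ) :
    {a // e + 1 ≤ T.lv a} ≃ {a // e + 1 ≤ T1.lv a} :=
  Equiv.ofBijective (fun a => ⟨ρ a, (h.rl a).symm ▸ a.2⟩)
    ⟨fun _ _ k => h.ri (congrArg Subtype.val k), fun b =>
      let ⟨a, k⟩ := h.su b b.2; ⟨a, Subtype.ext k⟩⟩

end

end Vale.Agent.P057XL
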