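import Vale.Agent.P057XL.Nxt
import Vale.Agent.P057NA.Wrap

/-!
The positions of the removed coordinates are pinned.
-/

set_option linter.all false

open Matrix Finset MvPolynomial
open Vale.Agent.P267.H775 Vale.Agent.P057G Vale.Agent.P057PC Vale.Agent.P057TP Vale.Agent.P057AD

namespace Vale.Agent.P057XL

noncomputable section

variable {D W S : Type} [Fintype W] [DecidableEq W] [Fintype S]
  {s s' j m e : ℕ} {N x0 : ℝ} {T T₀ T1 : Tow} {φ : T.ι → MvPolynomial T₀.ι ℤ} {cl : W → D}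
  {Z : Sys T W S} {Z1 : Sys T1 W S} {Ψ : Fam ℤ T.ι T1.ι W S} {ε : T₀.ι → T1.ι}
  {ρ : {a // e < T.lv a} → T1.ι} {c : ℝ}

theorem dv_rho {A : Type} [Fintype A] [DecidableEq A] {ρ : A → T.ι} {h : ∀ α, T.lv (ρ α) = e}
    {GA : Matrix A A ℝ} {J : Fam ℤ A (frm T h GA).ι W S} (hi : ρ.Injective) (Z : Sys T W S)
    (o : Option S) (a : A) : ((frm T h GA).dv cl m Z J).fn o a = lamZ ℝ (J.fn o a) -
      (Z.fam.cmp ((frm T h GA).fam J (0 : Lb (frm T h GA).tA cl S m → ℤ))).fn o (ρ a) := by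
  have e1 : ∀ y, (frm T h GA).D a y = if y = ρ a then 1 else 0 := mR_inc _ a
  have e2 := fam_rho (J := J) hi (0 : Lb (frm T h GA).tA cl S m → ℤ) o a
  have e3 : lift (0 : Lb (frm T h GA).tA cl S m → ℤ) o a = 0 := by simp [lift]
  refine (sum_eq_single (ρ a) (fun y _ k => mul_eq_zero_of_left
    (by rw [(e1 y).trans (if_neg k), C_0, C_0]) _) (by simp)).trans ?_
  refine (congrArg (fun r => C (C r) * _) ((e1 _).trans (if_pos rfl))).trans ?_
  rw [C_1, C_1, one_mul]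
  refine congrArg (lamZ ℝ · - _) (e2.trans ?_)
  exact (congrArg (_ + C ·) e3).trans (by rw [C_0, add_zero])

/-- the constant part of the position at a point -/
def xi (Z1 : Sys T1 W S) (x : Lb (T2 Z1 ρ c) cl S m → ℝ) (o : Option S) (B : Finset W)
    (a : Lv T (e + 1)) : ℝ :=
  ∑ μ : Mn W e, evA B (monomial μ.1 (1 : ℝ)) * pt x o B (Sum.inr (a, μ, tb o μ.1)) -
    evA B (coeff 0 (Z1.fam.fn o (rA ρ a)))

namespace Inv

variable (h : Inv s j x0 φ cl m Z e Z1 Ψ ε ρ) {x : Lb (T2 Z1 ρ c) cl S m → ℝ}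
  (n : Lb (h.fr c).tA cl S m → ℤ)

/-- extension by zero to the tower with the links -/
def ex (v : (h.fr c).ι → ℝ) : T1.ι ⊕ Lv T (e + 1) × Th W S e → ℝ :=
  ex0 (T := T2 Z1 ρ c) (fun a => Sum.inl (rA ρ a)) v

/-- a coordinate of lower level -/
def lo (c : ℝ) {b : T1.ι} (hb : T1.lv b ≤ e) : (h.fr c).ι :=
  ⟨Sum.inl b, fun ⟨a, k⟩ => by
    have := h.rA_lv a
    rw [Sum.inl_injective k] at this
    omega⟩

theorem ex_val (v : (h.fr c).ι → ℝ) (b : (h.fr c).ι) : h.ex v b.1 = v b := ex0_val v b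

theorem ev_cmp (o : Option S) (B : Finset W) (P : (h.fr c).ι → ℝ) {p : MvPolynomial T1.ι (Lam ℝ W)}
    (hp : ∀ v ∈ p.vars, T1.lv v ≤ e) :
    eval P (map (evA B) (bind₁ (fun b => lamZ ℝ ((h.P1 n).fn o b)) p)) =
      eval (h.ex P ∘ Sum.inl) (map (evA B) p) := by
  rw [map_bind₁, eval_bind]
  refine eval₂Hom_congr' rfl (fun v hv _ => ?_) rfl
  have k := hp v (vars_map _ _ hv)
  have k2 : (h.P1 n).fn o v = X (h.lo c k) := h.P2_val n o (h.lo c k)
  rw [k2, lamZ, map_X, map_X, eval_X]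
  exact (h.ex_val P (h.lo c k)).symm

include h in
theorem q_rA (hT : T.Ok s N) (hZ : Z.Ok) (o : Option S) (a : Lv T (e + 1)) (y : T1.ι → ℝ) :
    eval y (map constantCoeff (Z1.fam.fn o (rA ρ a))) = eval (ap φ (y ∘ ε)) (T.q a) := by
  rw [h.zok.fam.top_eq, Fam.top, rA, h.rf, ← Fam.top, Fam.top_cmp, hZ.top, eval_bind]
  refine eval₂Hom_congr' rfl (fun v hv _ => ?_) rfl
  rw [h.tp v (Nat.le_of_lt_succ ((hT.low _ v hv).trans_eq a.2)), eval_map, ← ap_rename]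
  rfl

/-- the position of a removed coordinate on the piece zero -/
def Ph (o : Option S) (a : Lv T (e + 1)) : MvPolynomial (h.fr c).ι (Lam ℝ W) :=
  lamZ ℝ ((h.J c).fn o a) - (Z1.fam.cmp (h.P1 (0 : Lb (h.fr c).tA cl S m → ℤ))).fn o (rA ρ a)

theorem dv_fn (hT : T.Ok s N) (hx : ∀ l a, l.cd = Sum.inl a → x l = 0) (o : Option S)
    (a : Lv T (e + 1)) : ((h.fr c).dv cl m (Z2 Z1 x) (h.J c)).fn o a = h.Ph o a := by
  refine (dv_rho (h.blk hT c).inj _ o a).trans (congrArg (_ - ·) ?_)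
  exact (congrArg (bind₁ _) (fn_inl hx o _)).trans (bind₁_rename _ _ _)

variable (hT : T.Ok s N) (hφ : Mor j T₀ T φ) (hj : e + 1 < j) (hc : 1 ≤ c) (hs : j ≤ s + 1)
  (hm : j ≤ m) (hx : ∀ l a, l.cd = Sum.inl a → x l = 0)
include hT hφ hj hc hs hm hx

theorem pt_eq (hZ : Z.Ok) {o : Option S} {B : Finset W} {P u : (h.fr c).ι → ℝ}
    (hP : ∀ b, (h.T3 c).lv b < m → P b - eval P ((h.Z3 x n).fam.at' o B b) = u b)
    (a : Lv T (e + 1)) : eval P (map (evA B) (h.Ph o a)) - xi Z1 x o B a =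
      T.ps (ap φ (P ∘ h.e' c)) a + ∑ μ : Mn W e, evA B (monomial μ.1 (1 : ℝ)) *
        (h.ex u ∘ Sum.inr - T1.lin lkv (Qk Z1 ρ) *ᵥ (h.ex u ∘ Sum.inl)) (a, μ, tb o μ.1) := by
  have h1 : ∀ b (k : T1.lv b ≤ e), h.ex P (Sum.inl b) -
      eval (h.ex P ∘ Sum.inl) (Z1.fam.at' o B b) = h.ex u (Sum.inl b) := fun b k => by
    have := hP (h.lo c k) (lt_of_le_of_lt k (by omega))
    rw [Fam.at', h.Z3_inl n hx o _ rfl, cmp_fn, h.ev_cmp n o B P fun v hv =>
      (JH.vars (h.zok.fam.hom o b) hv).trans k] at this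
    exact (congrArg (· - _) (h.ex_val P (h.lo c k))).trans
      (this.trans (h.ex_val u (h.lo c k)).symm)
  have h2 : ∀ k, P (h.ln c k) - eval (h.ex P ∘ Sum.inl) (Qk Z1 ρ k) = pt x o B (Sum.inr k) +
      (h.ex u ∘ Sum.inr - T1.lin lkv (Qk Z1 ρ) *ᵥ (h.ex u ∘ Sum.inl)) k := fun k => by
    have k1 := lkv_mem k
    have k2 := hP (h.ln c k) (lt_of_le_of_lt k1.2 (by omega))
    have k3 : (h.Z3 x n).fam.fn o (h.ln c k) = C (lift x o (h.ln c k).1) + bind₁
        (fun b => lamZ ℝ ((h.P1 n).fn o b)) ((fam0 Z1 lkv (Qk Z1 ρ)).fn o (Sum.inr k)) :=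
      (sys_val _ n o _).trans ((congrArg (bind₁ _) (fn_add x o (Sum.inr k))).trans
        ((map_add _ _ _).trans (congrArg₂ (· + ·) (bind₁_C_right _ _) (bind₁_rename _ _ _))))
    rw [Fam.at', k3, map_add, map_add, map_C, eval_C, evA_lift, h.ev_cmp n o B P fun v hv =>
      (JH.vars ((ok_fam0 h.zok h.Qk_hom).hom o (Sum.inr k)) hv).trans k1.2] at k2
    have k4 := aeval_sub_lin h.ok0.pos (h.Qk_hom k) (g := h.ex P ∘ Sum.inl)
      (g' := fun b => eval (h.ex P ∘ Sum.inl)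
        (map (evA B) (if T1.lv b = lkv k then Z1.fam.fn o b else X b)))
      fun b hb => by rw [if_neg hb, map_X, eval_X]
    have k5 : (T1.lin lkv (Qk Z1 ρ) *ᵥ (h.ex u ∘ Sum.inl)) k = ∑ b, (if T1.lv b = lkv k then
        coeff (Finsupp.single b 1) (Qk Z1 ρ k) else 0) • ((h.ex P ∘ Sum.inl) b -
        eval (h.ex P ∘ Sum.inl) (map (evA B) (if T1.lv b = lkv k then Z1.fam.fn o b else X b))) :=
      sum_congr rfl fun b _ => by
        by_cases k6 : T1.lv b = lkv k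
        · rw [if_pos k6, if_pos k6]
          exact congrArg₂ (· * ·) (if_pos k6) (h1 b (k6.trans_le k1.2)).symm
        · rw [if_neg k6, zero_smul]
          exact mul_eq_zero_of_left (if_neg k6) _
    simp only [fam0, Sum.elim_inr, map_bind₁, eval_bind, P057NA.map_evA] at k2
    rw [← k5, aeval_eq_eval, aeval_eq_eval] at k4
    have k7 : h.ex u (Sum.inr k) = u (h.ln c k) := h.ex_val u (h.ln c k)
    have k8 : pt x o B (Sum.inr k) = pt x o B (h.ln c k).1 := rfl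
    simp only [Pi.sub_apply, Function.comp_apply, k7, k8] at k4 ⊢
    linarith
  have h3 := eval_dec h.ok0.pos (h.fn_hom o a) B (h.ex P ∘ Sum.inl)
  have h4 : (h.ex P ∘ Sum.inl) ∘ ε = P ∘ h.e' c := funext fun b => h.ex_val P (h.e' c b)
  rw [h.q_rA hT hZ, h4] at h3
  have h5 : eval P (map (evA B) (lamZ ℝ ((h.J c).fn o a))) = ap φ (P ∘ h.e' c) a +
      ∑ μ : Mn W e, evA B (monomial μ.1 (1 : ℝ)) * P (h.ln c (a, μ, tb o μ.1)) := by
    simp only [J, lamZ, map_add, map_sum, map_mul, map_C, map_X, eval_C, eval_X, map_monomial,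
      map_one, map_rename, eval_rename, MvPolynomial.map_map]
    refine congrArg (· + _) ?_
    rw [eval_map, ap, aeval_def]
    exact congrArg (eval₂ · _ _) (Subsingleton.elim _ _)
  rw [Ph, map_sub, map_sub, h5, cmp_fn, h.ev_cmp _ o B P fun v hv =>
    Nat.le_of_lt_succ ((vars_low0 h.ok0 h.zok o _ v hv).trans_eq (h.rA_lv a)), h3, xi, Tow.ps]
  have h6 : ∀ μ : Mn W e, cf μ.1 (Z1.fam.fn o (rA ρ a)) = Qk Z1 ρ (a, μ, tb o μ.1) :=
    fun μ => (cf_tb h.zok.fam o _ _).symm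
  simp only [h6, ← sub_eq_iff_eq_add'.2 (h2 _), mul_sub, sum_sub_distrib]
  ring

theorem pin (hZ : Z.Ok) (h0 : T₀.Ok s' N) (hs' : s' < j) {t r g Dn X1 : ℝ} (t0 : 0 < t)
    (t1 : t ≤ 1) (hx0 : 0 < x0) (hr : (2 ^ (s + 1) * r) ^ 2 ≤ x0 * (t ^ s) ^ 2) (hg : c = g ^ 2)
    (g0 : 0 < g) (hD : ((Mn W e).card : ℝ) ≤ Dn)
    (hX : (Fintype.card W + Fintype.card S : ℝ) ≤ X1) (z : Lb (h.T3 c) cl S m → ℤ)
    (hz : (h.Z3 x n).nrm cl m z ≤ r) :
    qq (Gam (h.fr c).tA cl S m) (((h.fr c).dv cl m (Z2 Z1 x) (h.J c)).sb (toR z) -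
      fun l => dlt (fun B => xi Z1 x l.bs B l.cd) l.fc) ≤
      (X1 + 1) ^ (s + 1) * (2 ^ s * (t + Dn * (2 ^ (s + 1) * r / g))) ^ 2 := by
  have hI := h.step n hT hφ hj hc hs hm hx
  have hA := posDef_bk hT.pd fun a => T.lv a = e + 1
  have r0 : 0 ≤ r := (nq_nonneg _).trans hz
  have D0 : 0 ≤ Dn := (Nat.cast_nonneg _).trans hD
  refine le_of_eq_of_le (congrArg _ (funext fun l => ?_)) (qq_one (T := (h.fr c).tA) (s := s)
    (e := e + 1) (fun _ => rfl) (by omega) (fun A o a => altL A (eval (lift (T := h.T3 c) (toR z) o) (h.Ph o a)) -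
      dlt (fun B => xi Z1 x o B a) A) (sq_nonneg _) hX fun l => qq_le hA ?_)
  · rw [Pi.sub_apply, Fam.sb, Fam.alt_eq]
    exact congrArg (fun p => altL _ (eval _ p) - _) (h.dv_fn hT hx l.bs l.cd)
  obtain ⟨p, p1, p2⟩ := P057NA.vpz hI.ok0 hI.zok (toR z) l.bs
  have hl : l.fc.card ≤ s := l.card_le.trans (show e + 1 ≤ s by omega)
  have hJ : ∀ a, JH (h.T3 c).lv (h.Ph l.bs a) (e + 1) := fun a =>
    JH.sub (JH.lamZ ((h.J_ok hφ hj c).hom _ a)) fun β μ k =>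
      ((h.zok.fam.cmp (h.P1_ok 0 hT hφ hj hc hs)).hom _ _ β μ k).trans (h.rA_lv a)
  refine le_of_eq_of_le (congrArg _ (funext fun a => (congrArg (· - _)
    (p2 _ _ _ (hJ a) l.card_eq)).trans (dlt_sub _ _ _).symm)) ?_
  refine (nq_dlt hA (K := t + Dn * (2 ^ (s + 1) * r / g)) fun B hB => ?_).trans
    (mul_le_mul_of_nonneg_right (pow_le_pow_right₀ one_le_two hl) (by positivity))
  set u := pt ((h.Z3 x n).ps cl m z) l.bs B
  have hu : qq (T2 Z1 ρ c).G (h.ex u) ≤ (2 ^ (s + 1) * r) ^ 2 :=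
    (h.qq_T3 hT hφ hj hc hs u).trans_le (qq_le hI.ok0.pd ((nq_pt hI.ok0.pd _ _ B).trans
      (mul_le_mul (pow_le_pow_right₀ one_le_two (by have := card_le_card hB; omega)) hz
        (nq_nonneg _) (by positivity))))
  have hk := Gk_pd (W := W) (S := S) (e := e) hT.pd (show 0 < c by linarith)
  have p3 := p1 B (l.2.2.1.mono hB)
  set w := h.ex u ∘ Sum.inr - T1.lin lkv (Qk Z1 ρ) *ᵥ (h.ex u ∘ Sum.inl)
  have e1 : (fun a => eval (p B) (map (evA B) (h.Ph l.bs a)) - xi Z1 x l.bs B a) =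
      (fun a : Lv T (e + 1) => T.ps (ap φ (p B ∘ h.e' c)) a) + ∑ μ : Mn W e,
        evA B (monomial μ.1 (1 : ℝ)) • fun a => w (a, μ, tb l.bs μ.1) := funext fun a => by
    rw [h.pt_eq n hT hφ hj hc hs hm hx hZ p3 a, Pi.add_apply, Finset.sum_apply]
    rfl
  refine (congrArg _ e1).trans_le ((nq_add hA _ _).trans (add_le_add (nq_le t0.le ?_) ?_))
  · rw [ln_bk]
    refine ln_small hT h0 (by omega) hφ t0 t1 (le_of_mul_le_mul_left ?_ hx0) (by omega) hj
    refine le_trans (le_of_eq_of_le ?_ (h.dom _)) ((qq_le_gad T1.G hk _ _).trans (hu.trans hr))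
    refine congrArg (fun v => x0 * qq T₀.G v) (funext fun a => ?_)
    have := p3 (h.e' c a) ((h.ev a).trans_lt (by have := h0.le a; omega))
    rw [Fam.at', hI.ef, map_rename, P057NA.map_evA, eval_rename] at this
    exact this.trans (h.ex_val u (h.e' c a)).symm
  · refine (nq_sum hA _ _ (K := 2 ^ (s + 1) * r / g) fun μ _ => ?_).trans
      (mul_le_mul_of_nonneg_right (by simpa using hD) (by positivity))
    have k1 : nq (bk T.G fun a => T.lv a = e + 1) (fun a => w (a, μ, tb l.bs μ.1)) ≤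
        2 ^ (s + 1) * r / g := nq_le (by positivity) (by
      rw [div_pow, le_div_iff₀' (by positivity), ← hg]
      refine (gk_le hA (by linarith) w _).trans (le_trans ?_ hu)
      exact (le_add_of_nonneg_left (qq_nonneg h.ok0.pd.posSemidef _)).trans_eq
        (qq_gad T1.G _ _ (h.ex u)).symm)
    rw [nq_smul, evA_monomial]
    split_ifs
    · rwa [abs_one, one_mul]
    · rw [abs_zero, zero_mul]; positivity

end Inv

end

end Vale.Agent.P057XL
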