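import Vale.Agent.P057XL.Pin
import Vale.Agent.P057FZ.Fin

/-!
The quantitative part of one step.
-/

set_option linter.all false

open Matrix Finset MvPolynomial
open Vale.Agent.P267.H775 Vale.Agent.P057G Vale.Agent.P057PC Vale.Agent.P057TP Vale.Agent.P057AD

namespace Vale.Agent.P057XL

noncomputable section

variable {D W S : Type} [Fintype W] [DecidableEq W] [Fintype S]

/-- half the logarithm of the determinant of one level -/
def ld (T : Tow) (i : ℕ) : ℝ := Real.log (bk T.G fun a => T.lv a = i).det / 2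

theorem ld_le (T : Tow) {N : ℝ} (hN : 1 ≤ N) (i : ℕ) : ld T i ≤ T.yy N i := by
  refine le_add_of_nonneg_right ?_
  split_ifs
  exacts [Real.log_nonneg hN, le_rfl]

/-- the parameters -/
structure Par where
  x0 : ℝ
  g : ℝ
  t : ℝ
  R : ℝ
  δ : ℝ
  r0 : ℝ
  M : ℝ
  Q : ℝ
  Dn : ℝ

/-- the quantitative part of the state -/
structure Qt (a : Par) (N : ℝ) (P : ℕ → ℝ) {T : Tow} (T₀ : Tow) (cl : W → D) (m : ℕ)
    (Z : Sys T W S) (H : (Lb T cl S m → ℤ) → ℝ) (B κ σ : ℝ) (e : ℕ) {T1 : Tow} (Z1 : Sys T1 W S)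
    (Ψ : Fam ℤ T.ι T1.ι W S) : Prop where
  pin : ∃ x : Lb T cl S m → ℝ, (∀ l, e < T.lv l.cd → x l = 0) ∧ nq (Gam T cl S m) x ≤ e * a.R ∧
    ∀ z, Z1.nrm cl m z ≤ a.r0 - e * (a.R + 1) → nq (Gam T cl S m)
      (fun l => if T.lv l.cd ≤ e then Z.ps cl m (Ψ.sub cl m z) l - x l else 0) ≤ e * a.δ
  st : Z1.St cl m (fun z => H (Ψ.sub cl m z)) B (κ - e * (40 * a.δ * a.R * B))
    (σ / (2 * a.M ^ 2) ^ e)
  dm : ∀ i, T1.dm i ≤ T₀.dm i + e * (P (i + 1) * a.Dn) + if e < i then T.dm i else 0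
  yy : ∀ i, T1.yy N i ≤ T₀.yy N i + T₀.dm i * (Real.log a.x0 / 2) +
    e * (P (i + 1) * (a.Dn * (Real.log (a.g ^ 2) + 1))) + if e < i then ld T i else 0

/-- the conditions on the parameters -/
structure Par.Ok (a : Par) (s : ℕ) (N : ℝ) (P : ℕ → ℝ) (cl : W → D) (S : Type) [Fintype S] (m : ℕ)
    (X B κ σ : ℝ) : Prop where
  x0 : 1 ≤ a.x0
  g : 1 ≤ a.g
  t0 : 0 < a.t
  t1 : a.t ≤ 1
  R : 2 ≤ a.R
  δ : 0 ≤ a.δ
  δR : 40 * a.δ * a.R ≤ 1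
  r0 : a.R ≤ a.r0
  M : 1 ≤ a.M
  hN : 1 ≤ N
  P0 : ∀ i, 0 ≤ P i
  anti : ∀ i k, i ≤ k → P k ≤ P i
  hX : (Fintype.card W + Fintype.card S : ℝ) ≤ X
  Dn : ∀ e, e ≤ s → ((Mn W e).card * (Fintype.card S + 1) : ℝ) ≤ a.Dn
  sc : (2 ^ (s + 1) * a.r0) ^ 2 ≤ a.x0 * (a.t ^ s) ^ 2
  pin : (X + 1) ^ (s + 1) * (2 ^ s * (a.t + a.Dn * (2 ^ (s + 1) * a.r0 / a.g))) ^ 2 ≤ a.δ ^ 2
  ms : ∀ T' : Tow, T'.Ok s N → (∀ i, 1 ≤ i → T'.dm i ≤ a.Q ∧ T'.yy N i ≤ a.Q) →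
    T'.mz cl S m ≤ a.M
  Q : P 1 * (2 + Real.log a.x0 + s * (a.Dn * (Real.log (a.g ^ 2) + 1))) ≤ a.Q
  hB : 0 ≤ B
  hκ : s * (40 * a.δ * a.R * B) ≤ κ
  hσ : 0 < σ
  tl : 8 * B * (a.M ^ 2) ^ 2 * Real.exp (-(a.R ^ 2 / 3)) ≤ σ / (2 * a.M ^ 2) ^ s

variable {s s' j m e : ℕ} {N x0 : ℝ} {T T₀ T1 : Tow} {φ : T.ι → MvPolynomial T₀.ι ℤ} {cl : W → D}
  {Z : Sys T W S} {Z1 : Sys T1 W S} {Ψ : Fam ℤ T.ι T1.ι W S} {ε : T₀.ι → T1.ι}
  {ρ : {a // e < T.lv a} → T1.ι} {c : ℝ}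

theorem blk_lv (hT : T.Ok s N) (E : ℕ) :
    Blk T (Subtype.val : Lv T E → T.ι) (bk T.G fun a => T.lv a = E) :=
  ⟨Subtype.val_injective, fun _ _ => rfl, fun a x k =>
    hT.blk _ _ fun k2 => k ⟨⟨x, k2.symm.trans a.2⟩, rfl⟩⟩

/-- the frame of one level -/
abbrev fl (T : Tow) (E : ℕ) : Frame T E :=
  frm T (ρ := (Subtype.val : Lv T E → T.ι)) (fun a => a.2) (bk T.G fun a => T.lv a = E)

/-- a label of one level -/
def lA {E : ℕ} (l : Lb (fl T E).tA cl S m) : Lb T cl S m := la _ _ l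

theorem lA_inj {E : ℕ} : (lA : Lb (fl T E).tA cl S m → _).Injective :=
  ren_inj (T := (fl T E).tA) (T' := T) (e := Subtype.val) (fun a => a.2) Subtype.val_injective

theorem ext_off {E : ℕ} (u : Lb (fl T E).tA cl S m → ℝ) {l : Lb T cl S m} (k : T.lv l.cd ≠ E) :
    Function.extend lA u 0 l = 0 :=
  Function.extend_apply' _ _ _ fun ⟨b, k2⟩ => k (k2 ▸ b.cd.2)

theorem nq_ext (hT : T.Ok s N) {E : ℕ} (u : Lb (fl T E).tA cl S m → ℝ) :
    nq (Gam T cl S m) (Function.extend lA u 0) = nq (Gam (fl T E).tA cl S m) u := by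
  have h1 := gam_frm (h := fun a => a.2) hT.ok0 (blk_lv hT E) 0 (Function.extend lA u 0)
  have h2 : Function.extend lA u 0 ∘ lv (h := fun a => a.2) (GA := bk T.G fun a => T.lv a = E) 0 =
      0 := funext fun l => ext_off u fun k => l.cd.2 ⟨⟨_, k⟩, rfl⟩
  rw [h2, qq_zero, zero_add] at h1
  exact congrArg Real.sqrt (h1.trans (congrArg _ (funext fun l => lA_inj.extend_apply u 0 l)))

theorem mz_lv (hT : T.Ok s N) (E : ℕ) : (fl T E).tA.mz cl S m ≤ T.mz cl S m := by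
  have hF := frm_ok (h := fun a => a.2) hT.ok0 (blk_lv hT E)
  rw [mz_frm (h := fun a => a.2) hT.ok0 (blk_lv hT E) 0]
  exact le_mul_of_one_le_left (mul_nonneg (by positivity) (ms_nonneg _ _))
    (one_le_mul_of_one_le_of_one_le (one_le_pow₀ one_le_two)
      (P057TE.one_le_ms (P057GH.pd_Gam (T := (fl T E).tow 0) hF.pd cl S m)))

theorem nrm_il {K : Type} [Fintype K] [DecidableEq K] {lk : K → ℕ} {Q : K → MvPolynomial T.ι ℝ}
    {G : Matrix K K ℝ} (h3 : G.PosDef) (h4 : ∀ k k', lk k ≠ lk k' → G k k' = 0)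
    {x : Lb (T.add K lk Q G) cl S m → ℝ} (hx : ∀ l a, l.cd = Sum.inl a → x l = 0)
    (z : Lb (T.add K lk Q G) cl S m → ℤ) :
    Z.nrm cl m (z ∘ il) ≤ (Z.add K lk Q G x).nrm cl m z := by
  rw [Sys.nrm, Sys.nrm, qq_gam h4, ← funext (ps_il hx z)]
  exact Real.sqrt_le_sqrt (le_add_of_nonneg_right
    (qq_nonneg (P057GH.pd_Gam (T := tk lk G) h3 cl S m).posSemidef _))

theorem ext_id {E : ℕ} (p y : Lb T cl S m → ℝ) (n d u : Lb (fl T E).tA cl S m → ℝ)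
    (v : Lb (fl T E).tA cl S m) (h1 : n v + d v = p (lA v)) (h2 : y (lA v) = 0) :
    p (lA v) - (y (lA v) + Function.extend lA (n + u) 0 (lA v)) =
      0 + Function.extend lA (d - u) 0 (lA v) := by
  rw [lA_inj.extend_apply, lA_inj.extend_apply, h2, ← h1, Pi.add_apply, Pi.sub_apply]
  ring

theorem Inv.ps_rho (h : Inv s j x0 φ cl m Z e Z1 Ψ ε ρ) (hZ : Z.Ok) (z : Lb T1 cl S m → ℤ)
    {l : Lb T cl S m} {l1 : Lb T1 cl S m} (k : e < T.lv l.cd) (h1 : l1.cd = ρ ⟨l.cd, k⟩)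
    (h2 : l1.fc = l.fc) (h3 : l1.bs = l.bs) : Z.ps cl m (Ψ.sub cl m z) l = Z1.ps cl m z l1 := by
  have h4 : Ψ.sub cl m z l = z l1 := by
    rw [Fam.sub, ← h2, ← h3]
    exact alt_of_X z l1 (h1 ▸ h.rv _ ⟨l.cd, k⟩)
  rw [Sys.ps, Sys.ps, Pi.sub_apply, Pi.sub_apply, hZ.pr_sub h.pok, Sys.pr, Fam.alt_eq, Fam.alt_eq,
    h1, h2, h3, h.rf, toR_apply, toR_apply, h4]

theorem Inv.ps_la (h : Inv s j x0 φ cl m Z e Z1 Ψ ε ρ) (hZ : Z.Ok)
    {x : Lb (T2 Z1 ρ c) cl S m → ℝ} (hx : ∀ l b, l.cd = Sum.inl b → x l = 0)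
    (z : Lb (T2 Z1 ρ c) cl S m → ℤ) (v : Lb (fl T (e + 1)).tA cl S m) :
    (Z2 Z1 x).ps cl m z (la (T := T2 Z1 ρ c) (ρ := fun a => Sum.inl (rA ρ a)) h.rA_lv _ v) =
      Z.ps cl m (Ψ.sub cl m (z ∘ il)) (lA v) :=
  (ps_il hx z (v.ren (T := (fl T (e + 1)).tA) (rA ρ) h.rA_lv)).trans
    (h.ps_rho hZ (z ∘ il) (l := lA v) v.cd.2.ge rfl rfl rfl).symm

variable {a : Par} {P : ℕ → ℝ} {X B κ σ : ℝ} {H : (Lb T cl S m → ℤ) → ℝ}

theorem cnt (ha : a.Ok s N P cl S m X B κ σ) (hT : T.Ok s N) (hC : T.Cx N P) (he : e ≤ s) (i : ℕ) :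
    ((univ.filter fun k : Lv T (e + 1) × Th W S e => lkv k = i).card : ℝ) ≤ P (i + 1) * a.Dn ∧
      Real.log (bk (Gk T W S e (a.g ^ 2)) fun k => lkv k = i).det / 2 ≤
        P (i + 1) * (a.Dn * (Real.log (a.g ^ 2) + 1)) := by
  have h1 : (Fintype.card (Th W S e) : ℝ) ≤ a.Dn := by simpa using ha.Dn e he
  have h2 : 0 ≤ a.Dn := (Nat.cast_nonneg _).trans h1
  have h3 : 0 ≤ Real.log (a.g ^ 2) := Real.log_nonneg (one_le_pow₀ ha.g)
  have h4 := ha.P0 (i + 1)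
  have h5 := log_gk (posDef_bk hT.pd fun a => T.lv a = e + 1) (pow_pos (one_pos.trans_le ha.g) 2)
    fun θ : Th W S e => e + 1 - θ.1.1.degree = i
  refine ⟨?_, (congrArg (· / 2) h5).trans_le ?_⟩
  all_goals by_cases k : i ≤ e
  · have h6 := (P057TE.card_lv T (e + 1)).trans_le ((hC _).1.trans (ha.anti _ _ (Nat.succ_le_succ k)))
    refine (Nat.cast_le.2 (card_le_univ _)).trans ?_
    rw [Fintype.card_prod, Nat.cast_mul]
    exact mul_le_mul h6 h1 (Nat.cast_nonneg _) h4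
  · rw [filter_false_of_mem fun x _ => by have := (lkv_mem x).2; omega]
    simpa using mul_nonneg h4 h2
  · have h6 := (P057TE.card_lv T (e + 1)).trans_le ((hC _).1.trans (ha.anti _ _ (Nat.succ_le_succ k)))
    have h7 := (ld_le T ha.hN _).trans ((hC _).2.trans (ha.anti _ _ (Nat.succ_le_succ k)))
    have h8 := (Nat.cast_le.2 (Fintype.card_subtype_le
      fun θ : Th W S e => e + 1 - θ.1.1.degree = i)).trans h1
    rw [mul_div_assoc, mul_left_comm]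
    refine (mul_le_mul_of_nonneg_left (c := P (i + 1) * (Real.log (a.g ^ 2) + 1)) ?_
      (Nat.cast_nonneg _)).trans (mul_le_mul_of_nonneg_right h8 (by positivity))
    rw [ld] at h7
    nlinarith [mul_le_mul_of_nonneg_right h6 h3]
  · have : IsEmpty {θ : Th W S e // e + 1 - θ.1.1.degree = i} :=
      ⟨fun θ => by have := mem_Mn.1 θ.1.1.2; have := θ.2; omega⟩
    rw [Fintype.card_eq_zero]
    exact le_of_eq_of_le (by simp) (mul_nonneg h4 (mul_nonneg h2 (add_nonneg h3 zero_le_one)))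

variable (ha : a.Ok s N P cl S m X B κ σ) (hT : T.Ok s N) (hC : T.Cx N P) (hZ : Z.Ok)
  (h0 : T₀.Ok s' N) (hC0 : T₀.Cx N P) (hφ : Mor j T₀ T φ) (hs' : s' < j) (hj : e + 1 < j)
  (hs : j ≤ s + 1) (hm : j ≤ m) (h : Inv s j a.x0 φ cl m Z e Z1 Ψ ε ρ)
  (q : Qt a N P T₀ cl m Z H B κ σ e Z1 Ψ)
include ha hT hC hZ h0 hC0 hφ hs' hj hs hm h q

theorem dims (i : ℕ) : ((h.T3 (a.g ^ 2)).dm i ≤ T₀.dm i + (e + 1 : ℕ) * (P (i + 1) * a.Dn) +
      if e + 1 < i then T.dm i else 0) ∧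
    (h.T3 (a.g ^ 2)).yy N i ≤ T₀.yy N i + T₀.dm i * (Real.log a.x0 / 2) +
      (e + 1 : ℕ) * (P (i + 1) * (a.Dn * (Real.log (a.g ^ 2) + 1))) +
      if e + 1 < i then ld T i else 0 := by
  have hc : 1 ≤ a.g ^ 2 := one_le_pow₀ ha.g
  have hk := Gk_pd (W := W) (S := S) (e := e) hT.pd (show 0 < a.g ^ 2 by linarith)
  obtain ⟨-, c1, c2, c3, -⟩ := P057CU.cuta s _ _ W S cl m (e + 1)
    (Z2 Z1 (0 : Lb _ cl S m → ℝ)) (h.fr _) (h.J _) (h.ok2 hT.pd (by omega) (by linarith))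
    (h.Z2_ok hT hφ hj hc hs _) (h.fr_ok hT hφ hj hc hs) (frm_jok (h.J_ok hφ hj _)) (by omega)
    (by omega) (by omega)
  have k1 := q.dm i
  have k2 : (T2 Z1 ρ (a.g ^ 2)).dm i ≤ _ :=
    (dm_add i).trans_le (add_le_add_right (cnt ha hT hC (e := e) (by omega) i).1 (T1.dm i))
  have k3 := q.yy i
  have k4 : (T2 Z1 ρ (a.g ^ 2)).yy N i ≤ _ := (yy_add0 h.ok0.pd hk (Gk_blk _) N i).trans_le
    (add_le_add_right (cnt ha hT hC (e := e) (by omega) i).2 (T1.yy N i))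
  push_cast
  by_cases k : i = e + 1
  · subst k
    have k5 : (h.T3 (a.g ^ 2)).dm (e + 1) + T.dm (e + 1) = _ :=
      (congrArg _ (P057TE.card_lv T (e + 1)).symm).trans c2
    have k6 : (h.T3 (a.g ^ 2)).yy N (e + 1) + ld T (e + 1) = _ := c3 N
    rw [if_pos (by omega)] at k1 k3
    rw [if_neg (by omega), if_neg (by omega)]
    constructor <;> linarith
  · have k5 : (h.T3 (a.g ^ 2)).dm i = _ := (c1 N i k).1
    have k6 : (h.T3 (a.g ^ 2)).yy N i = _ := (c1 N i k).2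
    simp only [show e + 1 < i ↔ e < i by omega]
    constructor <;> linarith

theorem masses (hI : (h.T3 (a.g ^ 2)).Ok s N) :
    T.mz cl S m ≤ a.M ∧ (h.T3 (a.g ^ 2)).mz cl S m ≤ a.M := by
  have D0 : 0 ≤ a.Dn := le_trans (by positivity) (ha.Dn 0 s.zero_le)
  have l0 := Real.log_nonneg ha.x0
  have l1 := Real.log_nonneg (one_le_pow₀ (n := 2) ha.g)
  have es : ((e + 1 : ℕ) : ℝ) ≤ s := Nat.cast_le.2 (by omega)
  have p1 := ha.P0 1
  refine ⟨ha.ms T hT fun i hi => ?_, ha.ms _ hI fun i hi => ?_⟩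
  · have := ha.anti 1 i hi
    have : P 1 ≤ a.Q := le_trans (le_mul_of_one_le_right p1 (by
      linarith [mul_nonneg s.cast_nonneg (mul_nonneg D0 (add_nonneg l1 zero_le_one))])) ha.Q
    exact ⟨by linarith [(hC i).1], by linarith [(hC i).2]⟩
  obtain ⟨d1, d2⟩ := dims ha hT hC hZ h0 hC0 hφ hs' hj hs hm h q i
  have k1 := ha.anti 1 i hi
  have k2 := ha.anti 1 (i + 1) (by omega)
  have k3 := ha.P0 (i + 1)
  have k4 : (if e + 1 < i then T.dm i else 0) ≤ P 1 := by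
    split_ifs; exacts [(hC i).1.trans k1, p1]
  have k5 : (if e + 1 < i then ld T i else 0) ≤ P 1 := by
    split_ifs; exacts [(ld_le T ha.hN i).trans ((hC i).2.trans k1), p1]
  have k6 : ((e + 1 : ℕ) : ℝ) * (P (i + 1) * (a.Dn * (Real.log (a.g ^ 2) + 1))) ≤
      s * (P 1 * (a.Dn * (Real.log (a.g ^ 2) + 1))) := by gcongr
  have k7 : ((e + 1 : ℕ) : ℝ) * (P (i + 1) * a.Dn) ≤
      (e + 1 : ℕ) * (P (i + 1) * (a.Dn * (Real.log (a.g ^ 2) + 1))) := by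
    gcongr; exact le_mul_of_one_le_right D0 (by linarith)
  have k8 := mul_le_mul_of_nonneg_right ((hC0 i).1.trans k1) l0
  have k9 := mul_nonneg p1 l0
  constructor <;> linarith [(hC0 i).1, (hC0 i).2, ha.Q]

theorem pin_step {x : Lb (T2 Z1 ρ (a.g ^ 2)) cl S m → ℝ} (hx : ∀ l b, l.cd = Sum.inl b → x l = 0)
    (n : Lb (h.fr (a.g ^ 2)).tA cl S m → ℤ) {u : Lb (h.fr (a.g ^ 2)).tA cl S m → ℝ}
    (hn : qq (Gam _ cl S m) (toR n + u) ≤ a.R ^ 2)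
    (hp : ∀ z, (h.Z3 x n).nrm cl m z ≤ a.r0 → qq (Gam (h.fr (a.g ^ 2)).tA cl S m)
      (((h.fr _).dv cl m (Z2 Z1 x) (h.J _)).sb (toR z) - u) ≤ a.δ ^ 2) :
    ∃ y : Lb T cl S m → ℝ, (∀ l, e + 1 < T.lv l.cd → y l = 0) ∧
      nq (Gam T cl S m) y ≤ (e + 1 : ℕ) * a.R ∧
      ∀ z, (h.Z3 x n).nrm cl m z ≤ a.r0 - (e + 1 : ℕ) * (a.R + 1) → nq (Gam T cl S m) (fun l =>
        if T.lv l.cd ≤ e + 1 then Z.ps cl m ((Ψ.cmp (h.P1 n)).sub cl m z) l - y l else 0) ≤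
        (e + 1 : ℕ) * a.δ := by
  have hc : 1 ≤ a.g ^ 2 := one_le_pow₀ ha.g
  have h2 := h.ok2 (c := a.g ^ 2) hT.pd (by omega) (by linarith)
  have hk := Gk_pd (W := W) (S := S) (e := e) hT.pd (show 0 < a.g ^ 2 by linarith)
  have hF := h.fr_ok hT hφ hj hc hs
  have hJ := h.J_ok hφ hj (a.g ^ 2)
  have hB := h.blk hT (a.g ^ 2)
  have z2 := h.Z2_ok hT hφ hj hc hs x
  obtain ⟨y, y1, y2, y3⟩ := q.pin
  have pG := P057GH.pd_Gam hT.pd cl S m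
  have pA := P057GH.pd_Gam (T := (h.fr (a.g ^ 2)).tA) hF.pdA cl S m
  have R0 : 0 ≤ a.R := by linarith [ha.R]
  have δ1 : a.δ ≤ 1 := by nlinarith [ha.δR, ha.δ, ha.R]
  refine ⟨y + Function.extend lA (toR n + u) 0, fun l k => ?_, (nq_add pG _ _).trans ?_,
    fun z hz => ?_⟩
  · exact (congrArg₂ (· + ·) (y1 l (by omega)) (ext_off _ k.ne')).trans (add_zero 0)
  · refine (add_le_add y2 ((nq_ext hT _).trans_le (nq_le R0 hn))).trans_eq ?_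
    push_cast
    ring
  push_cast at hz ⊢
  have k1 := nq_le ha.δ (hp z (by nlinarith [e.cast_nonneg (α := ℝ)]))
  have k2 := dv_frm h2 hB z2 hJ n z
  have k3 := (nq_add pA _ _).trans (add_le_add (nq_le R0 hn) k1)
  rw [add_add_sub_cancel] at k3
  have k0 : 0 ≤ (h.Z3 x n).nrm cl m z := nq_nonneg _
  have k4 : (Z2 Z1 x).nrm cl m ((h.P2 n).sub cl m z) ≤ (h.Z3 x n).nrm cl m z + (a.R + a.δ) := by
    refine nq_le (by linarith [ha.δ]) ((gam_frm h2 hB (h.J _).top _).trans_le ?_)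
    have k5 := P057CU.nrm_sq (cl := cl) (m := m) (T := h.T3 _) hF.pd (h.Z3 x n) z
    refine (add_le_add ((congrArg _ (ps_frm h2 hB z2 hJ n z).symm).trans k5.symm).le
      ((congrArg _ k2.symm).trans_le (qq_le pA k3))).trans ?_
    nlinarith [ha.δ]
  have k5 : Z1.nrm cl m ((h.P1 n).sub cl m z) ≤ (Z2 Z1 x).nrm cl m ((h.P2 n).sub cl m z) :=
    nrm_il hk (Gk_blk _) hx ((h.P2 n).sub cl m z)
  refine le_of_eq_of_le (congrArg _ (funext fun l => ?_)) ((nq_add pG _ _).trans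
    ((add_le_add (y3 _ (by linarith)) ((nq_ext hT _).trans_le k1)).trans_eq (by ring)))
  rw [h.pok.sub_cmp (h.P1_ok n hT hφ hj hc hs), Pi.add_apply, Pi.add_apply]
  rcases lt_trichotomy (T.lv l.cd) (e + 1) with k | k | k
  · rw [if_pos k.le, if_pos (by omega)]
    exact (congrArg (_ - ·) ((congrArg _ (ext_off _ k.ne)).trans (add_zero _))).trans
      ((congrArg _ (ext_off _ k.ne)).trans (add_zero _)).symm
  · obtain ⟨v, rfl⟩ := mem_ren (T := (fl T (e + 1)).tA) (T' := T) (e := Subtype.val)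
      (fun a => a.2) (l := l) (a := ⟨l.cd, k⟩) rfl
    have k7 := (congrFun k2 v).trans (h.ps_la hZ hx ((h.P2 n).sub cl m z) v)
    rw [if_pos k.le, if_neg (by omega)]
    exact ext_id _ y _ _ u v k7 (y1 _ k.ge)
  · rw [if_neg (by omega), if_neg (by omega), zero_add]
    exact (ext_off _ k.ne').symm

theorem step : ∃ (T' : Tow) (Z' : Sys T' W S) (Ψ' : Fam ℤ T.ι T'.ι W S) (ε' : T₀.ι → T'.ι)
      (ρ' : {a // e + 1 < T.lv a} → T'.ι), Inv s j a.x0 φ cl m Z (e + 1) Z' Ψ' ε' ρ' ∧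
      Qt a N P T₀ cl m Z H B κ σ (e + 1) Z' Ψ' := by
  have hc : 1 ≤ a.g ^ 2 := one_le_pow₀ ha.g
  have h2 := h.ok2 (c := a.g ^ 2) hT.pd (by omega) (by linarith)
  have hk := Gk_pd (W := W) (S := S) (e := e) hT.pd (show 0 < a.g ^ 2 by linarith)
  obtain ⟨x, hx, st2⟩ := add0 h.ok0 h2 h.zok h.Qk_hom hk (Gk_blk _) q.st
  have hI := fun n => h.step n hT hφ hj hc hs hm hx
  obtain ⟨m0, m1⟩ := masses ha hT hC hZ h0 hC0 hφ hs' hj hs hm h q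
    ((hI 0).ok hT h0 hφ ha.x0 (by omega) hj)
  have m2 : (h.fr (a.g ^ 2)).tA.mz cl S m ≤ a.M := (mz_lv hT (e + 1)).trans m0
  have M1 : a.M ≤ a.M ^ 2 := le_self_pow₀ ha.M two_ne_zero
  have M2 : 1 ≤ 2 * a.M ^ 2 := by linarith [ha.M]
  have hp := fun n z (k : (h.Z3 x n).nrm cl m z ≤ a.r0) => (h.pin n hT hφ hj hc hs hm hx hZ h0 hs'
    ha.t0 ha.t1 (one_pos.trans_le ha.x0) ha.sc rfl (one_pos.trans_le ha.g) (le_trans
      (le_mul_of_one_le_right (Nat.cast_nonneg _) (le_add_of_nonneg_left (Nat.cast_nonneg _)))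
      (ha.Dn e (by omega))) ha.hX z k).trans ha.pin
  have η0 : 0 ≤ 40 * a.δ * a.R * B := by have := ha.δ; have := ha.R; have := ha.hB; positivity
  have es : (e : ℝ) ≤ s := Nat.cast_le.2 (by omega)
  obtain ⟨n, hn, st3⟩ := P057FZ.cut0 s _ _ W S cl m (e + 1) (Z2 Z1 x) (h.fr _) (h.J _) _ _ B _ _
    a.R a.δ (a.M ^ 2) h2 (h.Z2_ok hT hφ hj hc hs x) (h.fr_ok hT hφ hj hc hs)
    (frm_jok (h.J_ok hφ hj _)) (by omega) (by omega) (by omega)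
    (fun n z k => hp n z (k.trans ha.r0)) ((mz_frm h2 (h.blk hT _) _).trans_le ((mul_le_mul m1 m2
      (mul_nonneg (by positivity) (ms_nonneg _ _)) (by linarith [ha.M])).trans_eq (sq _).symm))
    (m1.trans M1) (m2.trans M1) (sub_nonneg.2 ((mul_le_mul_of_nonneg_right es η0).trans ha.hκ))
    (div_pos ha.hσ (by positivity)) ha.R ha.δ ha.δR (ha.tl.trans (div_le_div_of_nonneg_left
      ha.hσ.le (by positivity) (pow_le_pow_right₀ M2 (by omega)))) st2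
  have d := dims ha hT hC hZ h0 hC0 hφ hs' hj hs hm h q
  refine ⟨_, _, _, _, _, hI n, pin_step ha hT hC hZ h0 hC0 hφ hs' hj hs hm h q hx n hn (hp n), ?_,
    fun i => (d i).1, fun i => (d i).2⟩
  rw [div_div, ← pow_succ, sub_sub, ← add_one_mul] at st3
  simp only [h.pok.sub_cmp (h.P1_ok n hT hφ hj hc hs), Nat.cast_succ]
  exact st3

end

end Vale.Agent.P057XL
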